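import Vale.Agent.P365.S6.Lay

/-!
# P365 S6: `layer_upper`, `layer_lower`.
-/

namespace P365S6

open MeasureTheory ProbabilityTheory Complex Metric Set Filter Topology Matrix
open P365L (Gr Kmat)
open scoped Real

variable {ι : Type*} [Fintype ι] [DecidableEq ι]

/-- quasi norm of a block -/
noncomputable def bl (S B : Finset ι) (H : ι → ι → ℂ) : ℝ := ∑ a ∈ S, ∑ b ∈ B, ‖H a b‖ ^ 2

omit [Fintype ι] [DecidableEq ι] in
theorem bl_nonneg (S B : Finset ι) (H : ι → ι → ℂ) : 0 ≤ bl S B H :=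
  Finset.sum_nonneg fun _ _ => Finset.sum_nonneg fun _ _ => by positivity

omit [Fintype ι] [DecidableEq ι] in
theorem sum_mul_le_sqrt (S B : Finset ι) (u v : ι → ι → ℂ) :
    ∑ a ∈ S, ∑ b ∈ B, ‖u a b‖ * ‖v a b‖ ≤ Real.sqrt (bl S B u) * Real.sqrt (bl S B v) := by
  unfold bl
  rw [← Finset.sum_product', ← Finset.sum_product', ← Finset.sum_product']
  exact Real.sum_mul_le_sqrt_mul_sqrt (S ×ˢ B) (fun p => ‖u p.1 p.2‖) (fun p => ‖v p.1 p.2‖)

theorem sq_rpow_half {x p : ℝ} (hx : 0 ≤ x) : (x ^ 2) ^ (p / 2) = x ^ p := by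
  rw [← Real.rpow_natCast x 2, ← Real.rpow_mul hx]
  congr 1
  push_cast
  ring

omit [Fintype ι] [DecidableEq ι] in
theorem bl_add_rpow_le (S B : Finset ι) (u v : ι → ι → ℂ) {p : ℝ} (hp : 0 < p) (hp1 : p ≤ 1) :
    (bl S B fun a b => u a b + v a b) ^ (p / 2) ≤ bl S B u ^ (p / 2) + bl S B v ^ (p / 2) := by
  have hx := bl_nonneg S B u
  have hy := bl_nonneg S B v
  have h1 : (bl S B fun a b => u a b + v a b) ≤
      (Real.sqrt (bl S B u) + Real.sqrt (bl S B v)) ^ 2 := by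
    have h2 := sum_mul_le_sqrt S B u v
    have h3 : (bl S B fun a b => u a b + v a b) ≤ bl S B u + bl S B v +
        2 * ∑ a ∈ S, ∑ b ∈ B, ‖u a b‖ * ‖v a b‖ := by
      unfold bl
      rw [Finset.mul_sum, ← Finset.sum_add_distrib, ← Finset.sum_add_distrib]
      refine Finset.sum_le_sum fun a _ => ?_
      rw [Finset.mul_sum, ← Finset.sum_add_distrib, ← Finset.sum_add_distrib]
      refine Finset.sum_le_sum fun b _ => ?_
      have h4 := norm_add_le (u a b) (v a b)
      have h5 := norm_nonneg (u a b + v a b)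
      nlinarith [norm_nonneg (u a b), norm_nonneg (v a b)]
    have h6 := Real.sq_sqrt hx
    have h7 := Real.sq_sqrt hy
    nlinarith
  have h2 : 0 ≤ Real.sqrt (bl S B u) + Real.sqrt (bl S B v) := by positivity
  calc (bl S B fun a b => u a b + v a b) ^ (p / 2)
      ≤ ((Real.sqrt (bl S B u) + Real.sqrt (bl S B v)) ^ 2) ^ (p / 2) :=
        Real.rpow_le_rpow (bl_nonneg _ _ _) h1 (by positivity)
    _ = (Real.sqrt (bl S B u) + Real.sqrt (bl S B v)) ^ p := sq_rpow_half h2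
    _ ≤ Real.sqrt (bl S B u) ^ p + Real.sqrt (bl S B v) ^ p :=
        rpow_add_le' (Real.sqrt_nonneg _) (Real.sqrt_nonneg _) hp hp1
    _ = bl S B u ^ (p / 2) + bl S B v ^ (p / 2) := by
        rw [← sq_rpow_half (Real.sqrt_nonneg (bl S B u)), ← sq_rpow_half (Real.sqrt_nonneg (bl S B v)),
          Real.sq_sqrt hx, Real.sq_sqrt hy]

variable {A : Matrix ι ι ℝ} {g η : ℝ} {W : ι → ℂ} {L : Finset ι}

/-- the rotated block entries -/
noncomputable def FF (A : Matrix ι ι ℝ) (g : ℝ) (W : ι → ℂ) (L : Finset ι) (c : ι → ℝ) (z : ℂ)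
    (a b : ι) : ℂ := Gr A (Wb g W L) a b + 2 * g * I * (z *
      qf (NL A g W L c) (xL A g W L a) (yL A g W L c b) z)

theorem FF_analytic (hA : A.IsSymm) (hg : 0 < g) (hη : 0 < η) (hW : ∀ x, (W x).im ≤ -η)
    (c : ι → ℝ) (a b : ι) : AnalyticOnNhd ℂ (fun z => FF A g W L c z a b) (closedBall 0 1) := by
  intro z hz
  unfold FF
  exact analyticAt_const.add (analyticAt_const.mul (analyticAt_id.mul
    (qf_analytic (NL_contr (L := L) hA hg hη hW c) _ _ z hz)))

theorem measurable_block (S B : Finset ι) (p : ℝ) :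
    Measurable fun c => (bl S B (Gr A (Wr g W L c))) ^ (p / 2) := by
  unfold bl
  refine Measurable.pow_const ?_ _
  refine Finset.measurable_sum _ fun a _ => Finset.measurable_sum _ fun b _ => ?_
  refine (Measurable.norm ?_).pow_const 2
  refine P365L.measurable_Gr (fun c => Wr g W L c) (fun x => ?_) a b
  unfold Wr
  by_cases hx : x ∈ L
  · simp only [if_pos hx]
    exact ((Complex.measurable_ofReal.comp (measurable_pi_apply x)).const_mul _).const_add _
  · simp only [if_neg hx]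
    exact measurable_const

theorem block_bound (hA : A.IsSymm) (hη : 0 < η) (hW : ∀ x, (W x).im ≤ -η) (S B : Finset ι)
    {p : ℝ} (hp : 0 < p) (c : ι → ℝ) :
    |(bl S B (Gr A (Wr g W L c))) ^ (p / 2)| ≤ (S.card * (B.card * (1 / η) ^ 2)) ^ (p / 2) := by
  have h0 := bl_nonneg S B (Gr A (Wr g W L c))
  rw [abs_of_nonneg (by positivity)]
  refine Real.rpow_le_rpow h0 ?_ (by positivity)
  unfold bl
  rw [← nsmul_eq_mul, ← nsmul_eq_mul]
  refine Finset.sum_le_card_nsmul _ _ _ fun a _ => ?_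
  refine Finset.sum_le_card_nsmul _ _ _ fun b _ => ?_
  refine pow_le_pow_left₀ (norm_nonneg _) ?_ 2
  exact P365L.norm_Gr_le hA hη (fun x => by rw [Wr_im]; exact hW x) a b

theorem integrable_block (hA : A.IsSymm) (hη : 0 < η) (hW : ∀ x, (W x).im ≤ -η)
    (S B : Finset ι) {p : ℝ} (hp : 0 < p) :
    Integrable (fun c => (bl S B (Gr A (Wr g W L c))) ^ (p / 2)) (P365L.mu ι) :=
  Integrable.of_bound (measurable_block S B p).aestronglyMeasurable _
    (Eventually.of_forall fun c => by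
      rw [Real.norm_eq_abs]
      exact block_bound hA hη hW S B hp c)

theorem circleIntegrable_FF (hA : A.IsSymm) (hg : 0 < g) (hη : 0 < η) (hW : ∀ x, (W x).im ≤ -η)
    (S B : Finset ι) {p : ℝ} (hp : 0 < p) (c : ι → ℝ) :
    CircleIntegrable (fun z => bl S B (FF A g W L c z) ^ (p / 2)) 0 1 := by
  refine ContinuousOn.circleIntegrable' ?_
  refine ContinuousOn.rpow_const ?_ fun z _ => Or.inr (by positivity)
  unfold bl
  refine continuousOn_finsetSum _ fun a _ => continuousOn_finsetSum _ fun b _ => ?_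
  refine ContinuousOn.pow (ContinuousOn.norm ?_) 2
  rw [abs_one]
  exact fun z hz => (FF_analytic hA hg hη hW c a b z
    (sphere_subset_closedBall hz)).continuousAt.continuousWithinAt

theorem rot_identity (hA : A.IsSymm) (hg : 0 < g) (hη : 0 < η) (hW : ∀ x, (W x).im ≤ -η)
    (S B : Finset ι) (p : ℝ) (c : ι → ℝ) (θ : ℝ)
    (hθ : ∀ x, Real.cos (Real.arctan (c x) - θ / 2) ≠ 0) :
    (bl S B (Gr A (Wr g W L (rotv θ c)))) ^ (p / 2) =
      bl S B (FF A g W L c (circleMap 0 1 θ)) ^ (p / 2) := by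
  congr 1
  unfold bl
  refine Finset.sum_congr rfl fun a _ => Finset.sum_congr rfl fun b _ => ?_
  rw [Gr_rotv hA hg hη hW c θ hθ, FF]

/-- the constant of `layer_upper` -/
noncomputable def CK (p : ℝ) : ℝ := CH p

theorem CK_nonneg {p : ℝ} (hp : 0 < p) (hp1 : p < 1) : 0 ≤ CK p := by
  have := cos_pos hp hp1
  unfold CK CH
  positivity

theorem circleAverage_FF_le (hA : A.IsSymm) (hg : 0 < g) (hη : 0 < η) (hW : ∀ x, (W x).im ≤ -η)
    (S B : Finset ι) {p : ℝ} (hp : 0 < p) (hp1 : p < 1) (c : ι → ℝ) :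
    Real.circleAverage (fun z => bl S B (FF A g W L c z) ^ (p / 2)) 0 1 ≤
      bl S B (Gr A (Wb g W L)) ^ (p / 2) + CK p * (2 * g) ^ p *
        bl S L (Gr A (Wb g W L)) ^ (p / 2) * bl L B (Gr A (Wb g W L)) ^ (p / 2) := by
  have hN := NL_contr (L := L) hA hg hη hW c
  have hint1 : CircleIntegrable (fun z => (∑ a ∈ S, ∑ b ∈ B,
      ‖qf (NL A g W L c) (xL A g W L a) (yL A g W L c b) z‖ ^ 2) ^ (p / 2)) 0 1 := by
    refine ContinuousOn.circleIntegrable' ?_
    refine ContinuousOn.rpow_const ?_ fun z _ => Or.inr (by positivity)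
    refine continuousOn_finsetSum _ fun a _ => continuousOn_finsetSum _ fun b _ => ?_
    refine ContinuousOn.pow (ContinuousOn.norm ?_) 2
    rw [abs_one]
    exact fun z hz => (qf_analytic hN _ _ z
      (sphere_subset_closedBall hz)).continuousAt.continuousWithinAt
  have hle : ∀ z ∈ sphere (0 : ℂ) |(1:ℝ)|, bl S B (FF A g W L c z) ^ (p / 2) ≤
      bl S B (Gr A (Wb g W L)) ^ (p / 2) + (2 * g) ^ p * (∑ a ∈ S, ∑ b ∈ B,
      ‖qf (NL A g W L c) (xL A g W L a) (yL A g W L c b) z‖ ^ 2) ^ (p / 2) := by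
    intro z hz
    rw [abs_one, mem_sphere_zero_iff_norm] at hz
    refine (bl_add_rpow_le S B (Gr A (Wb g W L)) (fun a b => 2 * g * I * (z *
      qf (NL A g W L c) (xL A g W L a) (yL A g W L c b) z)) hp hp1.le).trans ?_
    refine add_le_add le_rfl (le_of_eq ?_)
    have h1 : bl S B (fun a b => 2 * g * I * (z *
        qf (NL A g W L c) (xL A g W L a) (yL A g W L c b) z)) = (2 * g) ^ 2 * ∑ a ∈ S, ∑ b ∈ B,
        ‖qf (NL A g W L c) (xL A g W L a) (yL A g W L c b) z‖ ^ 2 := by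
      unfold bl
      rw [Finset.mul_sum]
      refine Finset.sum_congr rfl fun a _ => ?_
      rw [Finset.mul_sum]
      refine Finset.sum_congr rfl fun b _ => ?_
      rw [norm_mul, norm_mul z, hz, one_mul, norm_mul, norm_I, mul_one, norm_mul,
        Complex.norm_real, Real.norm_of_nonneg hg.le, mul_pow]
      norm_num
    rw [h1, Real.mul_rpow (by positivity) (Finset.sum_nonneg fun _ _ =>
      Finset.sum_nonneg fun _ _ => by positivity), sq_rpow_half (by positivity)]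
  have hint2 : CircleIntegrable (fun z => (2 * g) ^ p * (∑ a ∈ S, ∑ b ∈ B,
      ‖qf (NL A g W L c) (xL A g W L a) (yL A g W L c b) z‖ ^ 2) ^ (p / 2)) 0 1 :=
    hint1.const_mul _
  refine (Real.circleAverage_mono (circleIntegrable_FF hA hg hη hW S B hp c)
    ((circleIntegrable_const _ _ _).add hint2) hle).trans ?_
  rw [Real.circleAverage_add (circleIntegrable_const _ _ _) hint2, Real.circleAverage_const]
  refine add_le_add le_rfl ?_
  have h2 := Real.circleAverage_fun_smul (a := (2 * g) ^ p)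
      (f := fun z => (∑ a ∈ S, ∑ b ∈ B,
      ‖qf (NL A g W L c) (xL A g W L a) (yL A g W L c b) z‖ ^ 2) ^ (p / 2)) (c := 0) (R := 1)
  simp only [smul_eq_mul] at h2
  rw [h2]
  have h3 := kol_HS hN S B (xL A g W L) (yL A g W L c) hp hp1
  have e1 : ∑ a ∈ S, ∑ i, ‖xL A g W L a i‖ ^ 2 = bl S L (Gr A (Wb g W L)) := by
    unfold bl
    refine Finset.sum_congr rfl fun a _ => ?_
    rw [← Finset.sum_subset (Finset.subset_univ L)]
    · refine Finset.sum_congr rfl fun i hi => ?_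
      rw [xL, if_pos hi, norm_star]
    · intro i _ hi
      rw [xL, if_neg hi]
      simp
  have e2 : ∑ b ∈ B, ∑ j, ‖yL A g W L c b j‖ ^ 2 = bl L B (Gr A (Wb g W L)) := by
    unfold bl
    rw [Finset.sum_comm (s := L)]
    refine Finset.sum_congr rfl fun b _ => ?_
    rw [← Finset.sum_subset (Finset.subset_univ L)]
    · refine Finset.sum_congr rfl fun j hj => ?_
      rw [yL, if_pos hj, norm_mul, norm_uu, one_mul]
    · intro j _ hj
      rw [yL, if_neg hj]
      simp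
  rw [e1, e2] at h3
  refine (mul_le_mul_of_nonneg_left h3 (by positivity)).trans (le_of_eq ?_)
  unfold CK
  ring

/-- **(K1)** closing a layer -/
theorem layer_upper' (hA : A.IsSymm) (hg : 0 < g) (hη : 0 < η) {p : ℝ} (hp : 0 < p) (hp1 : p < 1)
    (hW : ∀ x, (W x).im ≤ -η) (L S B : Finset ι) :
    ∫ c, bl S B (Gr A (Wr g W L c)) ^ (p / 2) ∂(P365L.mu ι) ≤
      bl S B (Gr A (Wb g W L)) ^ (p / 2) + CK p * (2 * g) ^ p *
        bl S L (Gr A (Wb g W L)) ^ (p / 2) * bl L B (Gr A (Wb g W L)) ^ (p / 2) :=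
  integral_rotv_le (measurable_block S B p) (block_bound hA hη hW S B hp)
    (rot_identity hA hg hη hW S B p) (circleAverage_FF_le hA hg hη hW S B hp hp1)

theorem le_circleAverage_FF (hA : A.IsSymm) (hg : 0 < g) (hη : 0 < η) (hW : ∀ x, (W x).im ≤ -η)
    (S B : Finset ι) {p : ℝ} (hp : 0 < p) (c : ι → ℝ) :
    bl S B (Gr A (Wb g W L)) ^ (p / 2) ≤
      Real.circleAverage (fun z => bl S B (FF A g W L c z) ^ (p / 2)) 0 1 := by
  set M := bl S B (Gr A (Wb g W L)) with hM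
  have hM0 : 0 ≤ M := bl_nonneg _ _ _
  rcases hM0.eq_or_lt with hM1 | hM1
  · rw [← hM1, Real.zero_rpow (by positivity)]
    refine Real.circleAverage_nonneg_of_nonneg fun z _ => ?_
    have := bl_nonneg S B (FF A g W L c z)
    positivity
  set h : ℂ → ℂ := fun z => ∑ a ∈ S, ∑ b ∈ B, star (Gr A (Wb g W L) a b) * FF A g W L c z a b with hh
  have hh_an : AnalyticOnNhd ℂ h (closedBall 0 1) := by
    intro z hz
    exact Finset.analyticAt_fun_sum _ fun a _ => Finset.analyticAt_fun_sum _ fun b _ =>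
      analyticAt_const.mul (FF_analytic hA hg hη hW c a b z hz)
  have h0 : h 0 = (M : ℂ) := by
    simp only [hh, FF, zero_mul, mul_zero, add_zero, hM, bl]
    rw [ofReal_sum]
    refine Finset.sum_congr rfl fun a _ => ?_
    rw [ofReal_sum]
    refine Finset.sum_congr rfl fun b _ => ?_
    rw [RCLike.star_def, Complex.conj_mul']
    push_cast
    rfl
  have h1 := sub_norm hh_an hp
  rw [h0, Complex.norm_real, Real.norm_of_nonneg hM0] at h1
  have h2 : ∀ z, ‖h z‖ ^ p ≤ M ^ (p / 2) * bl S B (FF A g W L c z) ^ (p / 2) := by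
    intro z
    have h3 : ‖h z‖ ≤ Real.sqrt M * Real.sqrt (bl S B (FF A g W L c z)) := by
      refine le_trans ?_ (sum_mul_le_sqrt S B (Gr A (Wb g W L)) (FF A g W L c z))
      refine (norm_sum_le _ _).trans (Finset.sum_le_sum fun a _ => ?_)
      refine (norm_sum_le _ _).trans (Finset.sum_le_sum fun b _ => ?_)
      rw [norm_mul, norm_star]
    have h4 := Real.rpow_le_rpow (norm_nonneg _) h3 hp.le
    refine h4.trans (le_of_eq ?_)
    rw [Real.mul_rpow (Real.sqrt_nonneg _) (Real.sqrt_nonneg _),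
      ← sq_rpow_half (Real.sqrt_nonneg M), ← sq_rpow_half (Real.sqrt_nonneg (bl S B _)),
      Real.sq_sqrt hM0, Real.sq_sqrt (bl_nonneg _ _ _)]
  have hint : CircleIntegrable (fun z => M ^ (p / 2) * bl S B (FF A g W L c z) ^ (p / 2)) 0 1 :=
    (circleIntegrable_FF hA hg hη hW S B hp c).const_mul _
  have h5 := Real.circleAverage_mono (circleIntegrable_norm_rpow hh_an hp.le) hint
    fun z _ => h2 z
  have h6 := Real.circleAverage_fun_smul (a := M ^ (p / 2))
      (f := fun z => bl S B (FF A g W L c z) ^ (p / 2)) (c := 0) (R := 1)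
  simp only [smul_eq_mul] at h6
  rw [h6] at h5
  have h7 : M ^ p = M ^ (p / 2) * M ^ (p / 2) := by
    rw [← Real.rpow_add hM1]
    congr 1
    ring
  rw [h7] at h1
  exact le_of_mul_le_mul_left (h1.trans h5) (by positivity)

/-- **(K2)** revealing increases -/
theorem layer_lower' (hA : A.IsSymm) (hg : 0 < g) (hη : 0 < η) {p : ℝ} (hp : 0 < p)
    (hW : ∀ x, (W x).im ≤ -η) (L S B : Finset ι) :
    bl S B (Gr A (Wb g W L)) ^ (p / 2) ≤
      ∫ c, bl S B (Gr A (Wr g W L c)) ^ (p / 2) ∂(P365L.mu ι) :=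
  le_integral_rotv (measurable_block S B p) (block_bound hA hη hW S B hp)
    (rot_identity hA hg hη hW S B p) (le_circleAverage_FF hA hg hη hW S B hp)

/-- **(K1)**, explicit form -/
theorem layer_upper {A : Matrix ι ι ℝ} (hA : A.IsSymm) {g η p : ℝ} (hg : 0 < g) (hη : 0 < η)
    (hp : 0 < p) (hp1 : p < 1) (W : ι → ℂ) (hW : ∀ x, (W x).im ≤ -η) (L S B : Finset ι) :
    ∫ c, (∑ a ∈ S, ∑ b ∈ B, ‖Gr A (fun x => W x + if x ∈ L then (g * c x : ℂ) else 0) a b‖ ^ 2) ^
        (p / 2) ∂(P365L.mu ι) ≤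
      (∑ a ∈ S, ∑ b ∈ B, ‖Gr A (fun x => W x + if x ∈ L then -(g * I) else 0) a b‖ ^ 2) ^ (p / 2) +
      CK p * (2 * g) ^ p *
        (∑ a ∈ S, ∑ x ∈ L, ‖Gr A (fun x => W x + if x ∈ L then -(g * I) else 0) a x‖ ^ 2) ^ (p / 2) *
        (∑ x ∈ L, ∑ b ∈ B, ‖Gr A (fun x => W x + if x ∈ L then -(g * I) else 0) x b‖ ^ 2) ^ (p / 2) :=
  layer_upper' hA hg hη hp hp1 hW L S B

/-- **(K2)**, explicit form -/
theorem layer_lower {A : Matrix ι ι ℝ} (hA : A.IsSymm) {g η p : ℝ} (hg : 0 < g) (hη : 0 < η)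
    (hp : 0 < p) (W : ι → ℂ) (hW : ∀ x, (W x).im ≤ -η) (L S B : Finset ι) :
    (∑ a ∈ S, ∑ b ∈ B, ‖Gr A (fun x => W x + if x ∈ L then -(g * I) else 0) a b‖ ^ 2) ^ (p / 2) ≤
      ∫ c, (∑ a ∈ S, ∑ b ∈ B,
        ‖Gr A (fun x => W x + if x ∈ L then (g * c x : ℂ) else 0) a b‖ ^ 2) ^ (p / 2)
        ∂(P365L.mu ι) :=
  layer_lower' hA hg hη hp hW L S B

/-- integrability companion -/
theorem layer_integrable {A : Matrix ι ι ℝ} (hA : A.IsSymm) {g η p : ℝ} (hη : 0 < η)
    (hp : 0 < p) (W : ι → ℂ) (hW : ∀ x, (W x).im ≤ -η) (L S B : Finset ι) :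
    Integrable (fun c : ι → ℝ => (∑ a ∈ S, ∑ b ∈ B,
        ‖Gr A (fun x => W x + if x ∈ L then (g * c x : ℂ) else 0) a b‖ ^ 2) ^ (p / 2))
      (P365L.mu ι) :=
  integrable_block hA hη hW S B hp

end P365S6
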