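import Vale.Agent.P365.MathlibUsed
import Mathlib.Analysis.Complex.MeanValue
import Mathlib.Analysis.SpecialFunctions.Trigonometric.ArctanDeriv
import Mathlib.MeasureTheory.Function.Jacobian

/-!
# P365 S6: the Cauchy law as a circle average; mean value property of bounded analytic functions
in the lower half plane.
-/

namespace P365S6

open MeasureTheory ProbabilityTheory Complex Metric Set Filter Topology
open scoped ENNReal NNReal Real Interval

/-- the standard Cauchy law -/
noncomputable abbrev nu : Measure ℝ := cauchyMeasure 0 1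

/-- Cayley map: unit disc to lower half plane, `0 ↦ -i` -/
noncomputable def cay (u : ℂ) : ℂ := -I * (1 - u) / (1 + u)

variable {E : Type*} [NormedAddCommGroup E] [NormedSpace ℝ E]

theorem nu_eq_withDensity : nu = volume.withDensity (cauchyPDF 0 1) :=
  cauchyMeasure_of_scale_ne_zero 0 one_ne_zero

theorem nu_integral (f : ℝ → E) :
    ∫ t, f t ∂nu = ∫ t, (π⁻¹ * (1 + t ^ 2)⁻¹ : ℝ) • f t := by
  rw [nu_eq_withDensity, integral_withDensity_eq_integral_toReal_smul (measurable_cauchyPDF 0 1)
    (Filter.Eventually.of_forall fun x => ENNReal.ofReal_lt_top)]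
  refine integral_congr_ae (Filter.Eventually.of_forall fun t => ?_)
  simp only [cauchyPDF, ENNReal.toReal_ofReal (cauchyPDF_pos 0 one_ne_zero t).le]
  congr 1
  rw [cauchyPDFReal_def']
  simp [add_comm]

theorem nu_integral_arctan (f : ℝ → E) :
    ∫ t, f t ∂nu = (π⁻¹ : ℝ) • ∫ φ in Ioo (-(π / 2)) (π / 2), f (Real.tan φ) := by
  rw [nu_integral]
  have him : Real.arctan '' univ = Ioo (-(π / 2)) (π / 2) := by
    rw [image_univ, Real.range_arctan]
  have h := integral_image_eq_integral_abs_deriv_smul (f := Real.arctan)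
    (f' := fun x => 1 / (1 + x ^ 2)) MeasurableSet.univ
    (fun x _ => (Real.hasDerivAt_arctan x).hasDerivWithinAt) Real.arctan_injective.injOn
    (fun φ => f (Real.tan φ))
  rw [him] at h
  rw [h, Measure.restrict_univ, ← integral_smul]
  refine integral_congr_ae (Filter.Eventually.of_forall fun t => ?_)
  simp only [Real.tan_arctan]
  rw [smul_smul]
  congr 1
  have : (0 : ℝ) < 1 + t ^ 2 := by positivity
  rw [abs_of_pos (by positivity)]
  ring

theorem cay_circleMap (θ : ℝ) : cay (circleMap 0 1 θ) = ((-Real.tan (θ / 2) : ℝ) : ℂ) := by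
  have h0 : circleMap 0 1 θ = ((Real.cos (θ / 2) : ℂ) + Real.sin (θ / 2) * I) ^ 2 := by
    simp only [circleMap, zero_add, ofReal_one, one_mul, ofReal_cos, ofReal_sin]
    rw [← Complex.exp_mul_I, ← Complex.exp_nat_mul]
    congr 1
    push_cast
    ring
  have h1 : ((Real.cos (θ / 2) : ℂ) + Real.sin (θ / 2) * I) ≠ 0 := by
    intro h
    have h2 := congrArg Complex.re h
    have h3 := congrArg Complex.im h
    simp only [add_re, ofReal_re, mul_re, I_re, mul_zero, ofReal_im, I_im, mul_one, sub_self,
      add_zero, zero_re, add_im, mul_im, zero_add, zero_im] at h2 h3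
    have h4 := Real.sin_sq_add_cos_sq (θ / 2)
    rw [h2, h3] at h4
    norm_num at h4
  have h5 : (1 : ℂ) = (Real.cos (θ / 2) : ℂ) ^ 2 + (Real.sin (θ / 2) : ℂ) ^ 2 := by
    rw [← ofReal_pow, ← ofReal_pow, ← ofReal_add, Real.cos_sq_add_sin_sq, ofReal_one]
  have h6 : (1 : ℂ) - circleMap 0 1 θ = -2 * I * Real.sin (θ / 2) *
      ((Real.cos (θ / 2) : ℂ) + Real.sin (θ / 2) * I) := by
    rw [h0]
    nth_rw 1 [h5]
    linear_combination (Real.sin (θ / 2) : ℂ) ^ 2 * I_sq
  have h7 : (1 : ℂ) + circleMap 0 1 θ = 2 * Real.cos (θ / 2) *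
      ((Real.cos (θ / 2) : ℂ) + Real.sin (θ / 2) * I) := by
    rw [h0]
    nth_rw 1 [h5]
    ring_nf
    rw [I_sq]
    ring
  unfold cay
  rw [h6, h7]
  by_cases hc : Real.cos (θ / 2) = 0
  · rw [hc, Real.tan_eq_sin_div_cos, hc]
    simp
  · have hc' : (Real.cos (θ / 2) : ℂ) ≠ 0 := ofReal_ne_zero.2 hc
    rw [Real.tan_eq_sin_div_cos, ofReal_neg, ofReal_div, ← neg_div,
      div_eq_div_iff (mul_ne_zero (mul_ne_zero two_ne_zero hc') h1) hc']
    linear_combination 2 * (Real.sin (θ / 2) : ℂ) * ((Real.cos (θ / 2) : ℂ) + Real.sin (θ / 2) * I) *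
      (Real.cos (θ / 2) : ℂ) * I_sq

/-- The Cauchy law as a circle average. -/
theorem nu_integral_circle (f : ℂ → E) :
    ∫ t : ℝ, f t ∂nu = Real.circleAverage (fun u => f (cay u)) 0 1 := by
  rw [nu_integral_arctan (fun t : ℝ => f t), Real.circleAverage_def]
  have h1 : ∀ θ : ℝ, f (cay (circleMap 0 1 θ)) = f ((-Real.tan (θ / 2) : ℝ) : ℂ) := fun θ => by
    rw [cay_circleMap]
  simp only [h1]
  have hper : Function.Periodic (fun θ : ℝ => f ((-Real.tan (θ / 2) : ℝ) : ℂ)) (2 * π) := by
    intro θ
    simp only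
    rw [show (θ + 2 * π) / 2 = θ / 2 + π by ring, Real.tan_add_pi]
  have h2 := hper.intervalIntegral_add_eq 0 (-π)
  rw [zero_add, show -π + 2 * π = π by ring] at h2
  rw [h2]
  have h3 : ∫ θ in (-π)..π, f ((-Real.tan (θ / 2) : ℝ) : ℂ) =
      (2 : ℝ) • ∫ θ in (-(π / 2))..(π / 2), f ((-Real.tan θ : ℝ) : ℂ) := by
    have := intervalIntegral.integral_comp_div (a := -π) (b := π)
      (fun θ => f ((-Real.tan θ : ℝ) : ℂ)) (c := 2) two_ne_zero
    rw [this, neg_div]
  have h4 : ∫ θ in (-(π / 2))..(π / 2), f ((-Real.tan θ : ℝ) : ℂ) =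
      ∫ θ in (-(π / 2))..(π / 2), f ((Real.tan θ : ℝ) : ℂ) := by
    have := intervalIntegral.integral_comp_neg (a := -(π / 2)) (b := π / 2)
      (fun θ => f ((Real.tan θ : ℝ) : ℂ))
    rw [neg_neg] at this
    rw [← this]
    simp only [Real.tan_neg]
  rw [h3, h4, smul_smul, intervalIntegral.integral_of_le (by linarith [Real.pi_pos]),
    integral_Ioc_eq_integral_Ioo]
  congr 1
  field_simp

theorem cay_im (u : ℂ) : (cay u).im = -(1 - ‖u‖ ^ 2) / ‖1 + u‖ ^ 2 := by
  have h : ‖1 + u‖ ^ 2 = (1 + u.re) ^ 2 + u.im ^ 2 := by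
    rw [Complex.sq_norm, Complex.normSq_apply]
    simp
    ring
  have h2 : ‖u‖ ^ 2 = u.re ^ 2 + u.im ^ 2 := by
    rw [Complex.sq_norm, Complex.normSq_apply]
    ring
  unfold cay
  rw [Complex.div_im]
  rw [← Complex.sq_norm, h, h2]
  simp
  ring

theorem cay_im_neg {u : ℂ} (hu : ‖u‖ < 1) : (cay u).im < 0 := by
  rw [cay_im, neg_div, neg_lt_zero]
  have h1 : 1 + u ≠ 0 := by
    intro h
    have : u = -1 := by linear_combination h
    rw [this, norm_neg, norm_one] at hu
    exact lt_irrefl _ hu
  have h2 : 0 < ‖1 + u‖ ^ 2 := by positivity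
  apply div_pos _ h2
  nlinarith [norm_nonneg u]

theorem cay_zero : cay 0 = -I := by simp [cay]

theorem cay_differentiableAt {u : ℂ} (hu : 1 + u ≠ 0) : DifferentiableAt ℂ cay u := by
  unfold cay
  fun_prop (disch := exact hu)

theorem one_add_ne {u : ℂ} (hu : ‖u‖ < 1) : 1 + u ≠ 0 := by
  intro h
  have : u = -1 := by linear_combination h
  rw [this, norm_neg, norm_one] at hu
  exact lt_irrefl _ hu

/-- **Mean value property** of bounded analytic functions in the lower half plane. -/
theorem nu_mean {F : ℂ → ℂ} (hd : DifferentiableOn ℂ F {z | z.im < 0})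
    (hc : ContinuousOn F {z | z.im ≤ 0}) {C : ℝ} (hb : ∀ z : ℂ, z.im ≤ 0 → ‖F z‖ ≤ C) :
    ∫ t : ℝ, F t ∂nu = F (-I) := by
  rw [nu_integral_circle F]
  set g : ℂ → ℂ := fun u => F (cay u) with hg
  have hdg : DifferentiableOn ℂ g (ball 0 1) := by
    intro u hu
    rw [mem_ball_zero_iff] at hu
    have h1 : DifferentiableAt ℂ F (cay u) :=
      (hd (cay u) (cay_im_neg hu)).differentiableAt
        ((isOpen_lt Complex.continuous_im continuous_const).mem_nhds (cay_im_neg hu))
    exact (h1.comp u (cay_differentiableAt (one_add_ne hu))).differentiableWithinAt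
  have hmean : ∀ r : ℝ, 0 < r → r < 1 → Real.circleAverage g 0 r = F (-I) := by
    intro r h0 h1
    have h2 : DiffContOnCl ℂ g (ball 0 |r|) := by
      rw [abs_of_pos h0]
      refine DifferentiableOn.diffContOnCl ?_
      rw [closure_ball _ h0.ne']
      exact hdg.mono (closedBall_subset_ball h1)
    rw [h2.circleAverage]
    simp only [hg, cay_zero]
  have hlim : Tendsto (fun r : ℝ => Real.circleAverage g 0 r) (𝓝[<] 1)
      (𝓝 (Real.circleAverage g 0 1)) := by
    simp only [Real.circleAverage_def]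
    refine Tendsto.const_smul ?_ _
    have hI : ∀ᶠ r : ℝ in 𝓝[<] 1, 0 < r ∧ r < 1 :=
      (eventually_nhdsWithin_of_eventually_nhds (lt_mem_nhds one_pos)).and
        (eventually_mem_nhdsWithin)
    refine intervalIntegral.tendsto_integral_filter_of_dominated_convergence (fun _ => C) ?_ ?_ ?_ ?_
    · filter_upwards [hI] with r hr
      have hcont : Continuous fun θ : ℝ => g (circleMap 0 r θ) := by
        rw [continuous_iff_continuousAt]
        intro θ
        have hm : circleMap 0 r θ ∈ ball (0 : ℂ) 1 := by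
          rw [mem_ball_zero_iff]
          simp only [norm_circleMap_zero, abs_of_pos hr.1, hr.2]
        exact ((hdg.differentiableAt (isOpen_ball.mem_nhds hm)).continuousAt).comp
          (f := circleMap 0 r) (continuous_circleMap 0 r).continuousAt
      exact hcont.aestronglyMeasurable
    · filter_upwards [hI] with r hr
      refine Eventually.of_forall fun θ _ => ?_
      refine hb _ (cay_im_neg ?_).le
      simp only [norm_circleMap_zero, abs_of_pos hr.1, hr.2]
    · exact intervalIntegrable_const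
    · have hne : ∀ᵐ θ : ℝ, θ ∈ Ι (0 : ℝ) (2 * π) → circleMap 0 1 θ ≠ -1 := by
        have h1 : ∀ᵐ θ : ℝ, θ ≠ π := Measure.ae_ne volume π
        filter_upwards [h1] with θ hθ hm h2
        rw [uIoc_of_le (by positivity)] at hm
        apply hθ
        have h3 := congrArg Complex.re h2
        simp only [circleMap, zero_add, ofReal_one, one_mul, Complex.exp_ofReal_mul_I_re,
          neg_re, one_re] at h3
        rw [Real.cos_eq_neg_one_iff] at h3
        obtain ⟨k, hk⟩ := h3
        have hk0 : (k : ℝ) = 0 := by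
          have h4 : (-1 : ℝ) < k := by
            by_contra h
            push_neg at h
            nlinarith [hm.1, Real.pi_pos]
          have h5 : (k : ℝ) < 1 := by
            by_contra h
            push_neg at h
            nlinarith [hm.2, Real.pi_pos]
          have h6 : -1 < k := by exact_mod_cast h4
          have h7 : k < 1 := by exact_mod_cast h5
          have : k = 0 := by omega
          exact_mod_cast this
        rw [hk0] at hk
        linarith
      filter_upwards [hne] with θ hθ hm
      have h1 := hθ hm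
      have h2 : Tendsto (fun r : ℝ => circleMap 0 r θ) (𝓝[<] 1) (𝓝 (circleMap 0 1 θ)) := by
        have : Continuous fun r : ℝ => circleMap 0 r θ := by
          unfold circleMap
          fun_prop
        exact (this.tendsto 1).mono_left nhdsWithin_le_nhds
      have h3 : ContinuousAt cay (circleMap 0 1 θ) := by
        refine (cay_differentiableAt ?_).continuousAt
        intro h
        apply h1
        linear_combination h
      have h4 : (cay (circleMap 0 1 θ)).im ≤ 0 := by
        rw [cay_circleMap, ofReal_im]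
      refine (hc _ h4).tendsto.comp (tendsto_nhdsWithin_iff.2 ⟨h3.tendsto.comp h2, ?_⟩)
      filter_upwards [hI] with r hr
      refine (cay_im_neg ?_).le
      simp only [norm_circleMap_zero, abs_of_pos hr.1, hr.2]
  have hconst : Tendsto (fun r : ℝ => Real.circleAverage g 0 r) (𝓝[<] 1) (𝓝 (F (-I))) := by
    refine tendsto_const_nhds.congr' ?_
    have hI : ∀ᶠ r : ℝ in 𝓝[<] 1, 0 < r ∧ r < 1 :=
      (eventually_nhdsWithin_of_eventually_nhds (lt_mem_nhds one_pos)).and
        (eventually_mem_nhdsWithin)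
    filter_upwards [hI] with r hr
    exact (hmean r hr.1 hr.2).symm
  exact tendsto_nhds_unique hlim hconst

end P365S6
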