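import Vale.Agent.P365.S6.Cau
import Mathlib.Analysis.Complex.JensenFormula
import Mathlib.Analysis.SpecialFunctions.Pow.Deriv
import Mathlib.Analysis.InnerProductSpace.PiL2

/-!
# P365 S6: dimension free Kolmogorov bound for `(1 - z N)⁻¹`, `N` a contraction.
-/

namespace P365S6

open MeasureTheory Complex Metric Set Filter Topology Matrix
open scoped Real Interval ComplexConjugate

/-! ### Kolmogorov's inequality for functions with positive real part -/

theorem norm_cpow_real {w : ℂ} (hw : w ≠ 0) (s : ℝ) : ‖w ^ (s : ℂ)‖ = ‖w‖ ^ s := by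
  rw [Complex.norm_cpow_of_ne_zero hw]
  simp

theorem re_cpow_ge {w : ℂ} (hw : 0 < w.re) {s : ℝ} (h0 : 0 ≤ s) (h1 : s ≤ 1) :
    Real.cos (π * s / 2) * ‖w‖ ^ s ≤ (w ^ (s : ℂ)).re := by
  have hne : w ≠ 0 := by
    rintro rfl
    simp at hw
  have harg : |w.arg| < π / 2 := Complex.abs_arg_lt_pi_div_two_iff.2 (Or.inl hw)
  have h2 : (w ^ (s : ℂ)).re = ‖w‖ ^ s * Real.cos (w.arg * s) := by
    rw [Complex.cpow_ofReal_re]
  rw [h2, mul_comm]
  refine mul_le_mul_of_nonneg_left ?_ (by positivity)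
  rw [← Real.cos_abs (w.arg * s)]
  apply Real.cos_le_cos_of_nonneg_of_le_pi (abs_nonneg _)
  · nlinarith [Real.pi_pos]
  · rw [abs_mul, abs_of_nonneg h0]
    nlinarith [abs_nonneg w.arg]

theorem cos_pos {s : ℝ} (h0 : 0 < s) (h1 : s < 1) : 0 < Real.cos (π * s / 2) := by
  apply Real.cos_pos_of_mem_Ioo
  constructor <;> nlinarith [Real.pi_pos]

/-- Kolmogorov: `avg |f|^s ≤ |f(0)|^s / cos(πs/2)` for `Re f > 0`. -/
theorem kol {f : ℂ → ℂ} (hf : ∀ z ∈ closedBall (0 : ℂ) 1, DifferentiableAt ℂ f z)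
    (hre : ∀ z ∈ closedBall (0 : ℂ) 1, 0 < (f z).re) {s : ℝ} (h0 : 0 < s) (h1 : s < 1) :
    Real.circleAverage (fun z => ‖f z‖ ^ s) 0 1 ≤ (Real.cos (π * s / 2))⁻¹ * ‖f 0‖ ^ s := by
  have hc := cos_pos h0 h1
  have hd : ∀ z ∈ closedBall (0 : ℂ) 1, DifferentiableAt ℂ (fun z => f z ^ (s : ℂ)) z := fun z hz =>
    (hf z hz).cpow_const (Or.inl (hre z hz))
  have hdc : DiffContOnCl ℂ (fun z => f z ^ (s : ℂ)) (ball 0 |(1:ℝ)|) := by
    rw [abs_one]
    refine DifferentiableOn.diffContOnCl ?_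
    rw [closure_ball _ one_ne_zero]
    exact fun z hz => (hd z hz).differentiableWithinAt
  have hm := hdc.circleAverage
  have hcont : ContinuousOn (fun z => f z ^ (s : ℂ)) (sphere 0 |(1:ℝ)|) := by
    rw [abs_one]
    exact fun z hz => (hd z (sphere_subset_closedBall hz)).continuousAt.continuousWithinAt
  have hint : CircleIntegrable (fun z => f z ^ (s : ℂ)) 0 1 :=
    ContinuousOn.circleIntegrable' hcont
  have hcf : ContinuousOn f (sphere 0 |(1:ℝ)|) := by
    rw [abs_one]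
    exact fun z hz => (hf z (sphere_subset_closedBall hz)).continuousAt.continuousWithinAt
  have hint2 : CircleIntegrable (fun z => Real.cos (π * s / 2) * ‖f z‖ ^ s) 0 1 := by
    refine ContinuousOn.circleIntegrable' ?_
    exact continuousOn_const.mul (hcf.norm.rpow_const fun z _ => Or.inr h0.le)
  have hint3 : CircleIntegrable (fun z => (f z ^ (s : ℂ)).re) 0 1 :=
    ContinuousOn.circleIntegrable' (Complex.continuous_re.comp_continuousOn hcont)
  have h2 : Real.circleAverage (fun z => Real.cos (π * s / 2) * ‖f z‖ ^ s) 0 1 ≤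
      Real.circleAverage (fun z => (f z ^ (s : ℂ)).re) 0 1 := by
    refine Real.circleAverage_mono hint2 hint3 fun z hz => ?_
    rw [abs_one] at hz
    exact re_cpow_ge (hre z (sphere_subset_closedBall hz)) h0.le h1.le
  have h3 : Real.circleAverage (fun z => (f z ^ (s : ℂ)).re) 0 1 = (f 0 ^ (s : ℂ)).re := by
    have := Complex.reCLM.circleAverage_comp_comm (f := fun z => f z ^ (s : ℂ)) (c := 0) (R := 1) hint
    rw [hm] at this
    exact this
  have h4 : Real.circleAverage (fun z => Real.cos (π * s / 2) * ‖f z‖ ^ s) 0 1 =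
      Real.cos (π * s / 2) * Real.circleAverage (fun z => ‖f z‖ ^ s) 0 1 := by
    have := Real.circleAverage_fun_smul (a := Real.cos (π * s / 2)) (f := fun z => ‖f z‖ ^ s) (c := 0) (R := 1)
    simpa only [smul_eq_mul] using this
  have h5 : (f 0 ^ (s : ℂ)).re ≤ ‖f 0‖ ^ s := by
    have hne : f 0 ≠ 0 := by
      intro h
      have := hre 0 (mem_closedBall_self zero_le_one)
      rw [h] at this
      simp at this
    rw [← norm_cpow_real hne]
    exact Complex.re_le_norm _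
  rw [h3, h4] at h2
  rw [inv_mul_eq_div, le_div_iff₀ hc, mul_comm]
  exact h2.trans h5

/-- `log |h|` is subharmonic -/
theorem log_sub {h : ℂ → ℂ} (hh : AnalyticOnNhd ℂ h (closedBall 0 1)) (h0 : h 0 ≠ 0) :
    Real.log ‖h 0‖ ≤ Real.circleAverage (fun z => Real.log ‖h z‖) 0 1 := by
  have hh' : AnalyticOnNhd ℂ h (closedBall 0 |(1:ℝ)|) := by rwa [abs_one]
  have hJ := MeromorphicOn.circleAverage_log_norm (c := 0) (R := 1) one_ne_zero hh'.meromorphicOn
  rw [hJ, AnalyticAt.meromorphicTrailingCoeffAt_of_ne_zero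
    (hh 0 (mem_closedBall_self zero_le_one)) h0, Real.log_one, mul_zero, add_zero]
  have hnn := MeromorphicOn.AnalyticOnNhd.divisor_nonneg hh'
  have : 0 ≤ ∑ᶠ u, ((MeromorphicOn.divisor h (closedBall 0 |(1:ℝ)|)) u : ℝ) *
      Real.log (1 * ‖(0 : ℂ) - u‖⁻¹) := by
    refine finsum_nonneg fun u => ?_
    by_cases hu : u ∈ closedBall (0 : ℂ) |(1:ℝ)|
    · refine mul_nonneg (by exact_mod_cast hnn u) ?_
      rw [one_mul, zero_sub, norm_neg]
      rw [abs_one, mem_closedBall_zero_iff] at hu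
      rw [Real.log_inv]
      have := Real.log_nonpos (norm_nonneg u) hu
      linarith
    · rw [Function.locallyFinsuppWithin.apply_eq_zero_of_notMem _ hu]
      simp
  linarith

theorem sub_norm {h : ℂ → ℂ} (hh : AnalyticOnNhd ℂ h (closedBall 0 1)) {s : ℝ} (hs : 0 < s) :
    ‖h 0‖ ^ s ≤ Real.circleAverage (fun z => ‖h z‖ ^ s) 0 1 := by
  have hcont : ContinuousOn h (sphere 0 |(1:ℝ)|) := by
    rw [abs_one]
    exact fun z hz => (hh z (sphere_subset_closedBall hz)).continuousAt.continuousWithinAt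
  have hint2 : CircleIntegrable (fun z => ‖h z‖ ^ s) 0 1 :=
    ContinuousOn.circleIntegrable' (hcont.norm.rpow_const fun z _ => Or.inr hs.le)
  by_cases h0 : h 0 = 0
  · rw [h0, norm_zero, Real.zero_rpow hs.ne']
    refine Real.circleAverage_nonneg_of_nonneg fun z _ => ?_
    positivity
  have hpos : 0 < ‖h 0‖ := norm_pos_iff.2 h0
  have hlog := log_sub hh h0
  have hh' : MeromorphicOn h (sphere 0 |(1:ℝ)|) := by
    rw [abs_one]
    exact fun z hz => (hh z (sphere_subset_closedBall hz)).meromorphicAt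
  have hintl : CircleIntegrable (fun z => Real.log ‖h z‖) 0 1 :=
    MeromorphicOn.circleIntegrable_log_norm hh'
  set f1 : ℂ → ℝ := fun z => ‖h 0‖ ^ s * (1 - s * Real.log ‖h 0‖) + (‖h 0‖ ^ s * s) * Real.log ‖h z‖
    with hf1
  have hintm : CircleIntegrable (fun z => (‖h 0‖ ^ s * s) * Real.log ‖h z‖) 0 1 :=
    hintl.const_mul _
  have hint1 : CircleIntegrable f1 0 1 :=
    (circleIntegrable_const _ _ _).add hintm
  set f2 : ℂ → ℝ := fun z => if h z = 0 then f1 z else ‖h z‖ ^ s with hf2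
  have hne : ∀ᶠ z in codiscreteWithin (sphere (0 : ℂ) |(1:ℝ)|), h z ≠ 0 := by
    rcases hh.eqOn_zero_or_eventually_ne_zero_of_preconnected
      (convex_closedBall (0 : ℂ) 1).isPreconnected with h1 | h1
    · exact absurd (h1 (mem_closedBall_self zero_le_one)) h0
    · rw [abs_one]
      exact Filter.codiscreteWithin_mono sphere_subset_closedBall h1
  have heq : (fun z => ‖h z‖ ^ s) =ᶠ[codiscreteWithin (sphere (0 : ℂ) |(1:ℝ)|)] f2 := by
    filter_upwards [hne] with z hz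
    simp only [hf2, if_neg hz]
  rw [Real.circleAverage_congr_codiscreteWithin heq one_ne_zero]
  have hint3 : CircleIntegrable f2 0 1 := CircleIntegrable.congr_codiscreteWithin heq hint2
  have hle : ∀ z, f1 z ≤ f2 z := by
    intro z
    by_cases hz : h z = 0
    · simp only [hf2, if_pos hz]
      exact le_rfl
    · simp only [hf2, if_neg hz, hf1]
      have hzp : 0 < ‖h z‖ := norm_pos_iff.2 hz
      have h1 : ‖h z‖ ^ s = ‖h 0‖ ^ s * Real.exp (s * (Real.log ‖h z‖ - Real.log ‖h 0‖)) := by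
        rw [Real.rpow_def_of_pos hzp, Real.rpow_def_of_pos hpos, ← Real.exp_add]
        congr 1
        ring
      rw [h1]
      have h2 := Real.add_one_le_exp (s * (Real.log ‖h z‖ - Real.log ‖h 0‖))
      have h3 : 0 ≤ ‖h 0‖ ^ s := by positivity
      nlinarith [mul_le_mul_of_nonneg_left h2 h3]
  refine le_trans ?_ (Real.circleAverage_mono hint1 hint3 fun z _ => hle z)
  have h4 : Real.circleAverage f1 0 1 = ‖h 0‖ ^ s * (1 - s * Real.log ‖h 0‖) +
      (‖h 0‖ ^ s * s) * Real.circleAverage (fun z => Real.log ‖h z‖) 0 1 := by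
    rw [hf1, Real.circleAverage_fun_add (circleIntegrable_const _ _ _) hintm,
      Real.circleAverage_const]
    congr 1
    have := Real.circleAverage_fun_smul (a := ‖h 0‖ ^ s * s) (f := fun z => Real.log ‖h z‖) (c := 0) (R := 1)
    simpa only [smul_eq_mul] using this
  rw [h4]
  have h5 : 0 ≤ ‖h 0‖ ^ s * s := by positivity
  nlinarith [mul_le_mul_of_nonneg_left hlog h5]


/-! ### matrices depending analytically on `z` -/

section Mat

variable {ι : Type*} [Fintype ι] [DecidableEq ι]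

theorem analyticAt_det {M : ℂ → Matrix ι ι ℂ} {z : ℂ} (h : ∀ i j, AnalyticAt ℂ (fun z => M z i j) z) :
    AnalyticAt ℂ (fun z => (M z).det) z := by
  simp only [Matrix.det_apply, Units.smul_def, zsmul_eq_mul]
  refine Finset.analyticAt_fun_sum _ fun σ _ => ?_
  exact analyticAt_const.mul (Finset.analyticAt_fun_prod _ fun i _ => h _ _)

theorem analyticAt_inv {M : ℂ → Matrix ι ι ℂ} {z : ℂ} (h : ∀ i j, AnalyticAt ℂ (fun z => M z i j) z)
    (hd : (M z).det ≠ 0) (i j : ι) : AnalyticAt ℂ (fun z => (M z)⁻¹ i j) z := by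
  simp only [Matrix.inv_def, Matrix.smul_apply, Ring.inverse_eq_inv', smul_eq_mul,
    Matrix.adjugate_apply]
  refine ((analyticAt_det h).inv hd).mul (analyticAt_det fun a b => ?_)
  by_cases hj : a = j
  · subst hj
    simp only [Matrix.updateRow_self]
    exact analyticAt_const
  · simp only [Matrix.updateRow_ne hj]
    exact h a b

/-- a contraction matrix with `1 - zN` invertible on the closed disc -/
structure Contr (N : Matrix ι ι ℂ) : Prop where
  le : ∀ v : ι → ℂ, ∑ i, ‖(N *ᵥ v) i‖ ^ 2 ≤ ∑ i, ‖v i‖ ^ 2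
  det : ∀ z : ℂ, ‖z‖ ≤ 1 → (1 - z • N).det ≠ 0

/-- the resolvent -/
noncomputable def Rz (N : Matrix ι ι ℂ) (z : ℂ) : Matrix ι ι ℂ := (1 - z • N)⁻¹

theorem Rz_zero (N : Matrix ι ι ℂ) : Rz N 0 = 1 := by simp [Rz]

theorem Rz_analytic {N : Matrix ι ι ℂ} (hN : Contr N) (i j : ι) :
    AnalyticOnNhd ℂ (fun z => Rz N z i j) (closedBall 0 1) := by
  intro z hz
  rw [mem_closedBall_zero_iff] at hz
  refine analyticAt_inv (M := fun z => 1 - z • N) (fun a b => ?_) (hN.det z hz) i j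
  simp only [Matrix.sub_apply, Matrix.smul_apply, smul_eq_mul]
  exact analyticAt_const.sub (analyticAt_id.mul analyticAt_const)

/-- quadratic form of the resolvent -/
noncomputable def qf (N : Matrix ι ι ℂ) (a b : ι → ℂ) (z : ℂ) : ℂ := star a ⬝ᵥ (Rz N z *ᵥ b)

theorem qf_analytic {N : Matrix ι ι ℂ} (hN : Contr N) (a b : ι → ℂ) :
    AnalyticOnNhd ℂ (qf N a b) (closedBall 0 1) := by
  intro z hz
  unfold qf
  simp only [dotProduct, Matrix.mulVec]
  refine Finset.analyticAt_fun_sum _ fun i _ => analyticAt_const.mul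
    (Finset.analyticAt_fun_sum _ fun j _ => (Rz_analytic hN i j z hz).mul analyticAt_const)

omit [DecidableEq ι] in
theorem dot_star_self (a : ι → ℂ) : star a ⬝ᵥ a = ((∑ i, ‖a i‖ ^ 2 : ℝ) : ℂ) := by
  simp only [dotProduct, Pi.star_apply, RCLike.star_def]
  rw [ofReal_sum]
  refine Finset.sum_congr rfl fun i _ => ?_
  rw [Complex.conj_mul']
  push_cast
  rfl

theorem qf_zero (N : Matrix ι ι ℂ) (a : ι → ℂ) : qf N a a 0 = ((∑ i, ‖a i‖ ^ 2 : ℝ) : ℂ) := by
  rw [qf, Rz_zero, Matrix.one_mulVec, dot_star_self]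

theorem norm_sub_sq' (a b : ℂ) : ‖a - b‖ ^ 2 = ‖a‖ ^ 2 - 2 * (star a * b).re + ‖b‖ ^ 2 := by
  simp only [Complex.sq_norm, Complex.normSq_apply, sub_re, sub_im, RCLike.star_def, mul_re,
    conj_re, conj_im]
  ring

/-- `2 Re ⟨a, (1 - zN)⁻¹ a⟩ ≥ ‖a‖²` -/
theorem qf_re {N : Matrix ι ι ℂ} (hN : Contr N) (a : ι → ℂ) {z : ℂ} (hz : ‖z‖ ≤ 1) :
    ∑ i, ‖a i‖ ^ 2 ≤ 2 * (qf N a a z).re := by
  set b := Rz N z *ᵥ a with hb
  have hu : IsUnit (1 - z • N).det := isUnit_iff_ne_zero.2 (hN.det z hz)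
  have h1 : a = b - z • (N *ᵥ b) := by
    have : (1 - z • N) *ᵥ b = a := by
      rw [hb, Rz, Matrix.mulVec_mulVec, Matrix.mul_nonsing_inv _ hu, Matrix.one_mulVec]
    rw [← this, Matrix.sub_mulVec, Matrix.one_mulVec, Matrix.smul_mulVec]
  have h2 : (qf N a a z).re = ∑ i, (star (a i) * b i).re := by
    rw [qf, ← hb]
    simp only [dotProduct, Pi.star_apply, Complex.re_sum]
  have hNb := hN.le b
  have h3 : ∀ i, ‖a i‖ ^ 2 = 2 * (star (a i) * b i).re - ‖b i‖ ^ 2 + ‖z‖ ^ 2 * ‖(N *ᵥ b) i‖ ^ 2 := by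
    intro i
    have h4 : a i = b i - z * (N *ᵥ b) i := by
      have := congrFun h1 i
      simpa using this
    have h5 : ‖z‖ ^ 2 * ‖(N *ᵥ b) i‖ ^ 2 = ‖b i - a i‖ ^ 2 := by
      rw [h4, sub_sub_cancel, norm_mul, mul_pow]
    rw [h5, norm_sub_sq']
    have h6 : (star (b i) * a i).re = (star (a i) * b i).re := by
      simp only [RCLike.star_def, mul_re, conj_re, conj_im]
      ring
    rw [h6]
    ring
  have h10 : ∑ i, ‖a i‖ ^ 2 = 2 * ∑ i, (star (a i) * b i).re - ∑ i, ‖b i‖ ^ 2 +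
      ‖z‖ ^ 2 * ∑ i, ‖(N *ᵥ b) i‖ ^ 2 := by
    rw [Finset.sum_congr rfl fun i _ => h3 i, Finset.sum_add_distrib, Finset.sum_sub_distrib,
      ← Finset.mul_sum, ← Finset.mul_sum]
  have h7 : ‖z‖ ^ 2 * ∑ i, ‖(N *ᵥ b) i‖ ^ 2 ≤ ∑ i, ‖b i‖ ^ 2 := by
    have h8 : ‖z‖ ^ 2 ≤ 1 := pow_le_one₀ (norm_nonneg z) hz
    have h9 : 0 ≤ ∑ i, ‖(N *ᵥ b) i‖ ^ 2 := Finset.sum_nonneg fun i _ => by positivity
    nlinarith
  rw [h2, h10]
  linarith

theorem circleIntegrable_norm_rpow {f : ℂ → ℂ} (hf : AnalyticOnNhd ℂ f (closedBall 0 1)) {s : ℝ}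
    (hs : 0 ≤ s) : CircleIntegrable (fun z => ‖f z‖ ^ s) 0 1 := by
  have hcont : ContinuousOn f (sphere 0 |(1:ℝ)|) := by
    rw [abs_one]
    exact fun z hz => (hf z (sphere_subset_closedBall hz)).continuousAt.continuousWithinAt
  exact ContinuousOn.circleIntegrable' (hcont.norm.rpow_const fun z _ => Or.inr hs)

theorem kol_diag {N : Matrix ι ι ℂ} (hN : Contr N) (a : ι → ℂ) {s : ℝ} (h0 : 0 < s) (h1 : s < 1) :
    Real.circleAverage (fun z => ‖qf N a a z‖ ^ s) 0 1 ≤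
      (Real.cos (π * s / 2))⁻¹ * (∑ i, ‖a i‖ ^ 2) ^ s := by
  by_cases ha : a = 0
  · subst ha
    have : (fun z => ‖qf N 0 0 z‖ ^ s) = fun _ => (0 : ℝ) := by
      funext z
      simp [qf, Real.zero_rpow h0.ne']
    rw [this, Real.circleAverage_const]
    have := cos_pos h0 h1
    positivity
  · have hpos : 0 < ∑ i, ‖a i‖ ^ 2 := by
      obtain ⟨i, hi⟩ := Function.ne_iff.1 ha
      refine Finset.sum_pos' (fun j _ => by positivity) ⟨i, Finset.mem_univ i, ?_⟩
      have : 0 < ‖a i‖ := norm_pos_iff.2 hi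
      positivity
    have h2 := kol (f := qf N a a) (fun z hz => (qf_analytic hN a a z hz).differentiableAt)
      (fun z hz => by
        rw [mem_closedBall_zero_iff] at hz
        linarith [qf_re hN a hz]) h0 h1
    rw [qf_zero, Complex.norm_real, Real.norm_of_nonneg hpos.le] at h2
    exact h2

theorem qf_polar (N : Matrix ι ι ℂ) (a b : ι → ℂ) (z : ℂ) :
    4 * qf N a b z = qf N (a + b) (a + b) z - qf N (a - b) (a - b) z
      - I * qf N (a + I • b) (a + I • b) z + I * qf N (a - I • b) (a - I • b) z := by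
  simp only [qf, Matrix.mulVec_add, Matrix.mulVec_sub, Matrix.mulVec_smul, star_add, star_sub,
    star_smul, add_dotProduct, sub_dotProduct, dotProduct_add, dotProduct_sub, smul_dotProduct,
    dotProduct_smul, smul_eq_mul, RCLike.star_def, conj_I]
  ring_nf
  simp only [I_sq]
  ring

theorem rpow_add_le' {x y s : ℝ} (hx : 0 ≤ x) (hy : 0 ≤ y) (h0 : 0 < s) (h1 : s ≤ 1) :
    (x + y) ^ s ≤ x ^ s + y ^ s := Real.rpow_add_le_add_rpow hx hy h0.le h1

omit [DecidableEq ι] in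
theorem sum_norm_add_le (a b : ι → ℂ) (c : ℂ) (hc : ‖c‖ = 1) :
    ∑ i, ‖(a + c • b) i‖ ^ 2 ≤ 2 * (∑ i, ‖a i‖ ^ 2 + ∑ i, ‖b i‖ ^ 2) := by
  rw [← Finset.sum_add_distrib, Finset.mul_sum]
  refine Finset.sum_le_sum fun i _ => ?_
  simp only [Pi.add_apply, Pi.smul_apply, smul_eq_mul]
  have h1 : ‖a i + c * b i‖ ≤ ‖a i‖ + ‖b i‖ := by
    refine (norm_add_le _ _).trans ?_
    rw [norm_mul, hc, one_mul]
  have h2 : 0 ≤ ‖a i + c * b i‖ := norm_nonneg _
  nlinarith [sq_nonneg (‖a i‖ - ‖b i‖)]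

theorem kol_pair_aux {N : Matrix ι ι ℂ} (hN : Contr N) (a b : ι → ℂ) {s : ℝ} (h0 : 0 < s)
    (h1 : s < 1) : Real.circleAverage (fun z => ‖qf N a b z‖ ^ s) 0 1 ≤
      4 * (Real.cos (π * s / 2))⁻¹ * (2 * (∑ i, ‖a i‖ ^ 2 + ∑ i, ‖b i‖ ^ 2)) ^ s := by
  have hc := cos_pos h0 h1
  set f : ℂ → ℂ → ℝ := fun c z => ‖qf N (a + c • b) (a + c • b) z‖ ^ s with hf
  have hint : ∀ c, CircleIntegrable (f c) 0 1 := fun c =>
    circleIntegrable_norm_rpow (qf_analytic hN _ _) h0.le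
  have hle : ∀ z, ‖qf N a b z‖ ^ s ≤ f 1 z + f (-1) z + f I z + f (-I) z := by
    intro z
    have h2 := qf_polar N a b z
    have e1 : a + b = a + (1 : ℂ) • b := by rw [one_smul]
    have e2 : a - b = a + (-1 : ℂ) • b := by rw [neg_smul, one_smul, sub_eq_add_neg]
    have e3 : a - I • b = a + (-I : ℂ) • b := by rw [neg_smul, sub_eq_add_neg]
    rw [e2, e3, e1] at h2
    set q : ℂ → ℂ := fun c => qf N (a + c • b) (a + c • b) z with hq
    have h3 : 4 * qf N a b z = q 1 - q (-1) - I * q I + I * q (-I) := h2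
    have h4 : ‖qf N a b z‖ ≤ ‖q 1‖ + ‖q (-1)‖ + ‖q I‖ + ‖q (-I)‖ := by
      have h5 : ‖4 * qf N a b z‖ ≤ ‖q 1‖ + ‖q (-1)‖ + ‖q I‖ + ‖q (-I)‖ := by
        rw [h3]
        refine (norm_add_le _ _).trans ?_
        refine add_le_add ((norm_sub_le _ _).trans (add_le_add (norm_sub_le _ _) ?_)) ?_
        · rw [norm_mul, norm_I, one_mul]
        · rw [norm_mul, norm_I, one_mul]
      rw [norm_mul] at h5
      have h6 : ‖(4 : ℂ)‖ = 4 := by norm_num
      rw [h6] at h5
      linarith [norm_nonneg (qf N a b z)]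
    refine (Real.rpow_le_rpow (norm_nonneg _) h4 h0.le).trans ?_
    refine (rpow_add_le' (by positivity) (by positivity) h0 h1.le).trans ?_
    refine add_le_add ?_ le_rfl
    refine (rpow_add_le' (by positivity) (by positivity) h0 h1.le).trans ?_
    refine add_le_add ?_ le_rfl
    exact rpow_add_le' (by positivity) (by positivity) h0 h1.le
  have hb : ∀ c : ℂ, ‖c‖ = 1 → Real.circleAverage (f c) 0 1 ≤
      (Real.cos (π * s / 2))⁻¹ * (2 * (∑ i, ‖a i‖ ^ 2 + ∑ i, ‖b i‖ ^ 2)) ^ s := by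
    intro c hc1
    refine (kol_diag hN _ h0 h1).trans ?_
    refine mul_le_mul_of_nonneg_left ?_ (by positivity)
    exact Real.rpow_le_rpow (Finset.sum_nonneg fun i _ => by positivity)
      (sum_norm_add_le a b c hc1) h0.le
  have hsum : CircleIntegrable (fun z => f 1 z + f (-1) z + f I z + f (-I) z) 0 1 :=
    (((hint 1).add (hint (-1))).add (hint I)).add (hint (-I))
  refine (Real.circleAverage_mono (circleIntegrable_norm_rpow (qf_analytic hN _ _) h0.le) hsum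
    fun z _ => hle z).trans ?_
  have e : Real.circleAverage (fun z => f 1 z + f (-1) z + f I z + f (-I) z) 0 1 =
      Real.circleAverage (f 1) 0 1 + Real.circleAverage (f (-1)) 0 1 +
      Real.circleAverage (f I) 0 1 + Real.circleAverage (f (-I)) 0 1 := by
    have h12 : CircleIntegrable (f 1 + f (-1)) 0 1 := (hint 1).add (hint (-1))
    have h123 : CircleIntegrable (f 1 + f (-1) + f I) 0 1 := h12.add (hint I)
    have h := Real.circleAverage_add h123 (hint (-I))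
    rw [Real.circleAverage_add h12 (hint I), Real.circleAverage_add (hint 1) (hint (-1))] at h
    exact h
  rw [e]
  have b1 := hb 1 (by simp)
  have b2 := hb (-1) (by simp)
  have b3 := hb I (by simp)
  have b4 := hb (-I) (by simp)
  linarith

theorem qf_smul (N : Matrix ι ι ℂ) (a b : ι → ℂ) (t : ℝ) (ht : t ≠ 0) (z : ℂ) :
    qf N ((t : ℂ) • a) ((t⁻¹ : ℂ) • b) z = qf N a b z := by
  simp only [qf, star_smul, smul_dotProduct, Matrix.mulVec_smul, dotProduct_smul, smul_eq_mul,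
    RCLike.star_def, conj_ofReal]
  have : (t : ℂ) ≠ 0 := ofReal_ne_zero.2 ht
  field_simp

/-- scalar bound for the pair `(a, b)` -/
theorem kol_pair {N : Matrix ι ι ℂ} (hN : Contr N) (a b : ι → ℂ) {s : ℝ} (h0 : 0 < s)
    (h1 : s < 1) : Real.circleAverage (fun z => ‖qf N a b z‖ ^ s) 0 1 ≤
      16 * (Real.cos (π * s / 2))⁻¹ * ((∑ i, ‖a i‖ ^ 2) ^ (s / 2) * (∑ i, ‖b i‖ ^ 2) ^ (s / 2)) := by
  have hc := cos_pos h0 h1
  have hz : ∀ v : ι → ℂ, ∑ i, ‖v i‖ ^ 2 = 0 → v = 0 := by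
    intro v hv
    funext i
    have := (Finset.sum_eq_zero_iff_of_nonneg (fun i _ => by positivity)).1 hv i (Finset.mem_univ i)
    simpa using this
  have hnn : ∀ v : ι → ℂ, 0 ≤ ∑ i, ‖v i‖ ^ 2 := fun v => Finset.sum_nonneg fun i _ => by positivity
  have htriv : (a = 0 ∨ b = 0) → Real.circleAverage (fun z => ‖qf N a b z‖ ^ s) 0 1 = 0 := by
    intro h
    have : (fun z => ‖qf N a b z‖ ^ s) = fun _ => (0 : ℝ) := by
      funext z
      rcases h with h | h <;> subst h <;> simp [qf, Real.zero_rpow h0.ne']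
    rw [this, Real.circleAverage_const]
  by_cases hA : ∑ i, ‖a i‖ ^ 2 = 0
  · rw [htriv (Or.inl (hz a hA))]
    have := hnn a
    have := hnn b
    positivity
  by_cases hB : ∑ i, ‖b i‖ ^ 2 = 0
  · rw [htriv (Or.inr (hz b hB))]
    have := hnn a
    have := hnn b
    positivity
  have hA' : 0 < ∑ i, ‖a i‖ ^ 2 := lt_of_le_of_ne (hnn a) (Ne.symm hA)
  have hB' : 0 < ∑ i, ‖b i‖ ^ 2 := lt_of_le_of_ne (hnn b) (Ne.symm hB)
  set x := ∑ i, ‖a i‖ ^ 2 with hx
  set y := ∑ i, ‖b i‖ ^ 2 with hy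
  set t : ℝ := Real.sqrt (Real.sqrt y / Real.sqrt x) with ht
  have hsx : 0 < Real.sqrt x := Real.sqrt_pos.2 hA'
  have hsy : 0 < Real.sqrt y := Real.sqrt_pos.2 hB'
  have htp : 0 < t := Real.sqrt_pos.2 (by positivity)
  have ht2 : t ^ 2 = Real.sqrt y / Real.sqrt x := Real.sq_sqrt (by positivity)
  have h2 := kol_pair_aux hN ((t : ℂ) • a) ((t⁻¹ : ℂ) • b) h0 h1
  simp only [qf_smul N a b t htp.ne'] at h2
  refine h2.trans ?_
  have e1 : ∑ i, ‖((t : ℂ) • a) i‖ ^ 2 = Real.sqrt x * Real.sqrt y := by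
    simp only [Pi.smul_apply, smul_eq_mul, norm_mul, Complex.norm_real, Real.norm_of_nonneg htp.le,
      mul_pow]
    rw [← Finset.mul_sum, ← hx, ht2]
    have := Real.mul_self_sqrt hA'.le
    field_simp
    nlinarith
  have e2 : ∑ i, ‖((t⁻¹ : ℂ) • b) i‖ ^ 2 = Real.sqrt x * Real.sqrt y := by
    simp only [Pi.smul_apply, smul_eq_mul, norm_mul, norm_inv, Complex.norm_real,
      Real.norm_of_nonneg htp.le, mul_pow, inv_pow]
    rw [← Finset.mul_sum, ← hy, ht2]
    have := Real.mul_self_sqrt hB'.le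
    field_simp
    nlinarith
  rw [e1, e2]
  have h5 : 2 * (Real.sqrt x * Real.sqrt y + Real.sqrt x * Real.sqrt y) =
      4 * (Real.sqrt x * Real.sqrt y) := by ring
  rw [h5, Real.mul_rpow (by norm_num) (by positivity), Real.mul_rpow hsx.le hsy.le]
  have e3 : Real.sqrt x ^ s = x ^ (s / 2) := by
    rw [Real.sqrt_eq_rpow, ← Real.rpow_mul hA'.le]
    congr 1
    ring
  have e4 : Real.sqrt y ^ s = y ^ (s / 2) := by
    rw [Real.sqrt_eq_rpow, ← Real.rpow_mul hB'.le]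
    congr 1
    ring
  rw [e3, e4]
  have h6 : (4 : ℝ) ^ s ≤ 4 := by
    calc (4 : ℝ) ^ s ≤ 4 ^ (1 : ℝ) := Real.rpow_le_rpow_of_exponent_le (by norm_num) h1.le
      _ = 4 := Real.rpow_one 4
  have h7 : 0 ≤ x ^ (s / 2) * y ^ (s / 2) := by positivity
  have h8 : 4 ^ s * (x ^ (s / 2) * y ^ (s / 2)) ≤ 4 * (x ^ (s / 2) * y ^ (s / 2)) :=
    mul_le_mul_of_nonneg_right h6 h7
  have h9 : 0 ≤ 4 * (Real.cos (π * s / 2))⁻¹ := by positivity
  calc 4 * (Real.cos (π * s / 2))⁻¹ * (4 ^ s * (x ^ (s / 2) * y ^ (s / 2)))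
      ≤ 4 * (Real.cos (π * s / 2))⁻¹ * (4 * (x ^ (s / 2) * y ^ (s / 2))) :=
        mul_le_mul_of_nonneg_left h8 h9
    _ = _ := by ring

end Mat

end P365S6
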