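import Vale.Agent.P365.S6.Rot

/-!
# P365 S6: revealing a layer of absorbing sites (`layer_upper`, `layer_lower`).
-/

namespace P365S6

open MeasureTheory ProbabilityTheory Complex Metric Set Filter Topology Matrix
open P365L (Gr Kmat)
open scoped Real

variable {ι : Type*} [Fintype ι] [DecidableEq ι]

/-- absorbing potential on `L` -/
noncomputable def Wb (g : ℝ) (W : ι → ℂ) (L : Finset ι) (x : ι) : ℂ :=
  W x + if x ∈ L then -(g * I) else 0

/-- revealed potential on `L` -/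
noncomputable def Wr (g : ℝ) (W : ι → ℂ) (L : Finset ι) (c : ι → ℝ) (x : ι) : ℂ :=
  W x + if x ∈ L then (g * c x : ℂ) else 0

/-- projection on `L` -/
def PL (L : Finset ι) : Matrix ι ι ℂ := Matrix.diagonal fun x => if x ∈ L then 1 else 0

/-- phases on `L` -/
noncomputable def DL (L : Finset ι) (c : ι → ℝ) : Matrix ι ι ℂ :=
  Matrix.diagonal fun x => if x ∈ L then uu (c x) else 0

/-- scattering matrix -/
noncomputable def SL (A : Matrix ι ι ℝ) (g : ℝ) (W : ι → ℂ) (L : Finset ι) : Matrix ι ι ℂ :=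
  1 + (2 * g * I : ℂ) • Gr A (Wb g W L)

/-- `D S P` -/
noncomputable def NL (A : Matrix ι ι ℝ) (g : ℝ) (W : ι → ℂ) (L : Finset ι) (c : ι → ℝ) :
    Matrix ι ι ℂ := DL L c * SL A g W L * PL L

variable {A : Matrix ι ι ℝ} {g η : ℝ} {W : ι → ℂ} {L : Finset ι}

omit [Fintype ι] in
theorem Wb_im (x : ι) : (Wb g W L x).im = (W x).im - if x ∈ L then g else 0 := by
  unfold Wb
  split_ifs <;> simp [sub_eq_add_neg]

omit [Fintype ι] in
theorem Wr_im (c : ι → ℝ) (x : ι) : (Wr g W L c x).im = (W x).im := by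
  unfold Wr
  split_ifs <;> simp

omit [Fintype ι] in
theorem Wb_im_le (hg : 0 < g) (hW : ∀ x, (W x).im ≤ -η) (x : ι) : (Wb g W L x).im ≤ -η := by
  rw [Wb_im]
  split_ifs <;> linarith [hW x]

theorem Gr_mul (hA : A.IsSymm) {V : ι → ℂ} (hV : ∀ x, (V x).im < 0) : Kmat A V * Gr A V = 1 :=
  Matrix.mul_nonsing_inv _ (isUnit_iff_ne_zero.2 (P365L.det_ne_zero hA hV))

theorem Gr_mul' (hA : A.IsSymm) {V : ι → ℂ} (hV : ∀ x, (V x).im < 0) : Gr A V * Kmat A V = 1 :=
  Matrix.nonsing_inv_mul _ (isUnit_iff_ne_zero.2 (P365L.det_ne_zero hA hV))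

/-- dissipation identity -/
theorem im_dot_Gr (hA : A.IsSymm) {V : ι → ℂ} (hV : ∀ x, (V x).im < 0) (w : ι → ℂ) :
    (∑ x, star (w x) * (Gr A V *ᵥ w) x).im = ∑ x, -(V x).im * ‖(Gr A V *ᵥ w) x‖ ^ 2 := by
  set u := Gr A V *ᵥ w with hu
  have hw : Kmat A V *ᵥ u = w := by
    rw [hu, Matrix.mulVec_mulVec, Gr_mul hA hV, Matrix.one_mulVec]
  have h1 := P365L.im_quadratic (W := V) hA u
  rw [hw] at h1
  have h2 : (∑ x, star (w x) * u x) = (starRingEnd ℂ) (∑ x, (starRingEnd ℂ) (u x) * w x) := by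
    rw [map_sum]
    refine Finset.sum_congr rfl fun x _ => ?_
    rw [map_mul, Complex.conj_conj, RCLike.star_def, mul_comm]
  rw [h2, Complex.conj_im, h1, ← Finset.sum_neg_distrib]
  exact Finset.sum_congr rfl fun x _ => by ring

/-- strict contractivity of `N` -/
theorem NL_le (hA : A.IsSymm) (hg : 0 < g) (hη : 0 < η) (hW : ∀ x, (W x).im ≤ -η) (c : ι → ℝ)
    (v : ι → ℂ) : ∑ x, ‖(NL A g W L c *ᵥ v) x‖ ^ 2 +
      4 * g * η * ∑ x, ‖(Gr A (Wb g W L) *ᵥ (PL L *ᵥ v)) x‖ ^ 2 ≤ ∑ x, ‖v x‖ ^ 2 := by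
  have hV : ∀ x, (Wb g W L x).im < 0 := fun x => by
    have := Wb_im_le (L := L) hg hW x
    linarith
  set w := PL L *ᵥ v with hw
  set u := Gr A (Wb g W L) *ᵥ w with hu
  have hwx : ∀ x, w x = if x ∈ L then v x else 0 := by
    intro x
    rw [hw, PL, Matrix.mulVec_diagonal]
    split_ifs <;> simp
  have hS : SL A g W L *ᵥ w = fun x => w x + (2 * g * I) * u x := by
    funext x
    rw [SL, Matrix.add_mulVec, Matrix.one_mulVec, Matrix.smul_mulVec, Pi.add_apply, Pi.smul_apply,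
      smul_eq_mul]
  have hN : ∀ x, (NL A g W L c *ᵥ v) x = if x ∈ L then uu (c x) * (w x + (2 * g * I) * u x) else 0 := by
    intro x
    rw [NL, Matrix.mul_assoc, ← Matrix.mulVec_mulVec, ← Matrix.mulVec_mulVec, ← hw, hS, DL,
      Matrix.mulVec_diagonal]
    split_ifs <;> simp
  have hNn : ∀ x, ‖(NL A g W L c *ᵥ v) x‖ ^ 2 ≤ ‖w x‖ ^ 2 -
      4 * g * (star (w x) * u x).im + 4 * g ^ 2 * (if x ∈ L then ‖u x‖ ^ 2 else 0) := by
    intro x
    rw [hN]
    by_cases hx : x ∈ L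
    · rw [if_pos hx, if_pos hx, norm_mul, norm_uu, one_mul]
      apply le_of_eq
      simp only [Complex.sq_norm, Complex.normSq_apply, add_re, add_im, mul_re, mul_im, I_re, I_im,
        ofReal_re, ofReal_im, RCLike.star_def, conj_re, conj_im, re_ofNat, im_ofNat]
      ring
    · have hw0 : w x = 0 := by rw [hwx, if_neg hx]
      rw [if_neg hx, if_neg hx, hw0]
      simp
  have h1 := im_dot_Gr hA hV w
  rw [← hu, Complex.im_sum] at h1
  have h2 : ∑ x, ‖(NL A g W L c *ᵥ v) x‖ ^ 2 ≤ ∑ x, (‖w x‖ ^ 2 -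
      4 * g * (star (w x) * u x).im + 4 * g ^ 2 * (if x ∈ L then ‖u x‖ ^ 2 else 0)) :=
    Finset.sum_le_sum fun x _ => hNn x
  rw [Finset.sum_add_distrib, Finset.sum_sub_distrib, ← Finset.mul_sum, ← Finset.mul_sum, h1] at h2
  have h3 : ∑ x, ‖w x‖ ^ 2 ≤ ∑ x, ‖v x‖ ^ 2 := by
    refine Finset.sum_le_sum fun x _ => ?_
    rw [hwx]
    split_ifs
    · exact le_rfl
    · simp
  have h4 : g * ∑ x, (if x ∈ L then ‖u x‖ ^ 2 else 0) + η * ∑ x, ‖u x‖ ^ 2 ≤
      ∑ x, -(Wb g W L x).im * ‖u x‖ ^ 2 := by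
    rw [Finset.mul_sum, Finset.mul_sum, ← Finset.sum_add_distrib]
    refine Finset.sum_le_sum fun x _ => ?_
    rw [Wb_im]
    have h5 : 0 ≤ ‖u x‖ ^ 2 := by positivity
    have h6 := hW x
    split_ifs
    · nlinarith
    · nlinarith
  nlinarith [mul_le_mul_of_nonneg_left h4 hg.le]

theorem NL_contr (hA : A.IsSymm) (hg : 0 < g) (hη : 0 < η) (hW : ∀ x, (W x).im ≤ -η)
    (c : ι → ℝ) : Contr (NL A g W L c) := by
  refine ⟨fun v => ?_, fun z hz h0 => ?_⟩
  · have h1 := NL_le (L := L) hA hg hη hW c v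
    have h2 : 0 ≤ 4 * g * η * ∑ x, ‖(Gr A (Wb g W L) *ᵥ (PL L *ᵥ v)) x‖ ^ 2 :=
      mul_nonneg (by positivity) (Finset.sum_nonneg fun x _ => by positivity)
    linarith
  · obtain ⟨v, hv, hv0⟩ := Matrix.exists_mulVec_eq_zero_iff.2 h0
    apply hv
    have h1 := NL_le (L := L) hA hg hη hW c v
    have hvz : v = z • (NL A g W L c *ᵥ v) := by
      rw [Matrix.sub_mulVec, Matrix.one_mulVec, Matrix.smul_mulVec, sub_eq_zero] at hv0
      exact hv0
    have h2 : ∑ x, ‖v x‖ ^ 2 ≤ ∑ x, ‖(NL A g W L c *ᵥ v) x‖ ^ 2 := by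
      refine Finset.sum_le_sum fun x _ => ?_
      have h3 : ‖v x‖ = ‖z‖ * ‖(NL A g W L c *ᵥ v) x‖ := by
        conv_lhs => rw [hvz]
        rw [Pi.smul_apply, smul_eq_mul, norm_mul]
      rw [h3, mul_pow]
      have h4 : ‖z‖ ^ 2 ≤ 1 := pow_le_one₀ (norm_nonneg z) hz
      have h5 : 0 ≤ ‖(NL A g W L c *ᵥ v) x‖ ^ 2 := by positivity
      nlinarith
    have h3 : ∑ x, ‖(Gr A (Wb g W L) *ᵥ (PL L *ᵥ v)) x‖ ^ 2 ≤ 0 := by
      have h4 : 4 * g * η * ∑ x, ‖(Gr A (Wb g W L) *ᵥ (PL L *ᵥ v)) x‖ ^ 2 ≤ 0 := by linarith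
      have h5 : 0 < 4 * g * η := by positivity
      by_contra h6
      push Not at h6
      have := mul_pos h5 h6
      linarith
    have hu : Gr A (Wb g W L) *ᵥ (PL L *ᵥ v) = 0 := by
      have h4 : ∑ x, ‖(Gr A (Wb g W L) *ᵥ (PL L *ᵥ v)) x‖ ^ 2 = 0 :=
        le_antisymm h3 (Finset.sum_nonneg fun x _ => by positivity)
      funext x
      have := (Finset.sum_eq_zero_iff_of_nonneg (fun i _ => by positivity)).1 h4 x
        (Finset.mem_univ x)
      simpa using this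
    have hV : ∀ x, (Wb g W L x).im < 0 := fun x => by
      have := Wb_im_le (L := L) hg hW x
      linarith
    have hw : PL L *ᵥ v = 0 := by
      have h5 : Kmat A (Wb g W L) *ᵥ (Gr A (Wb g W L) *ᵥ (PL L *ᵥ v)) = PL L *ᵥ v := by
        rw [Matrix.mulVec_mulVec, Gr_mul hA hV, Matrix.one_mulVec]
      rw [← h5, hu, Matrix.mulVec_zero]
    rw [hvz, NL, ← Matrix.mulVec_mulVec, hw, Matrix.mulVec_zero, smul_zero]


/-! ### the resolvent with the layer revealed -/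

/-- left vectors -/
noncomputable def xL (A : Matrix ι ι ℝ) (g : ℝ) (W : ι → ℂ) (L : Finset ι) (a : ι) (i : ι) : ℂ :=
  if i ∈ L then star (Gr A (Wb g W L) a i) else 0

/-- right vectors -/
noncomputable def yL (A : Matrix ι ι ℝ) (g : ℝ) (W : ι → ℂ) (L : Finset ι) (c : ι → ℝ) (b : ι)
    (j : ι) : ℂ := (if j ∈ L then uu (c j) else 0) * Gr A (Wb g W L) j b

omit [Fintype ι] in
theorem one_sub_u_mul (x : ι) (c : ι → ℝ) :
    (1 - if x ∈ L then uu (c x) else 0) * (Wr g W L c x - Wb g W L x) =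
      -(2 * g * I) * if x ∈ L then uu (c x) else 0 := by
  unfold Wr Wb
  by_cases hx : x ∈ L
  · simp only [if_pos hx]
    rw [one_sub_uu]
    unfold uu
    have := sub_I_ne (c x)
    field_simp
    ring
  · simp only [if_neg hx]
    ring

theorem one_sub_uu_ne (c : ℝ) : 1 - uu c ≠ 0 := by
  rw [one_sub_uu]
  exact div_ne_zero (by simp) (sub_I_ne c)

theorem Gr_formula (hA : A.IsSymm) (hg : 0 < g) (hη : 0 < η) (hW : ∀ x, (W x).im ≤ -η)
    (c : ι → ℝ) (a b : ι) : Gr A (Wr g W L c) a b = Gr A (Wb g W L) a b +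
      2 * g * I * qf (NL A g W L c) (xL A g W L a) (yL A g W L c b) 1 := by
  have hV : ∀ x, (Wb g W L x).im < 0 := fun x => by
    have := Wb_im_le (L := L) hg hW x
    linarith
  set N := NL A g W L c with hN
  set Gb := Gr A (Wb g W L) with hGb
  set D := DL L c with hD
  set P := PL L with hP
  have hdet := (NL_contr (L := L) hA hg hη hW c).det 1 (by simp)
  have hu : IsUnit (1 - (1 : ℂ) • N).det := isUnit_iff_ne_zero.2 hdet
  obtain ⟨X, hX⟩ : ∃ X, X = Rz N 1 * (D * Gb) := ⟨_, rfl⟩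
  have h1 : X = D * Gb + N * X := by
    have h2 : (1 - (1 : ℂ) • N) * X = D * Gb := by
      rw [hX, Rz, ← Matrix.mul_assoc, Matrix.mul_nonsing_inv _ hu, Matrix.one_mul]
    rw [one_smul, Matrix.sub_mul, Matrix.one_mul] at h2
    rw [← h2]
    abel
  have hPD : P * D = D := by
    rw [hP, hD, PL, DL, Matrix.diagonal_mul_diagonal]
    congr 1
    funext x
    split_ifs <;> simp
  have hPN : P * N = N := by
    rw [hN, NL, Matrix.mul_assoc, ← Matrix.mul_assoc, ← hD, hPD]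
  have hPX : P * X = X := by
    conv_lhs => rw [h1]
    rw [Matrix.mul_add, ← Matrix.mul_assoc, hPD, ← Matrix.mul_assoc, hPN]
    exact h1.symm
  have hNX : N * X = D * (X + (2 * g * I : ℂ) • (Gb * X)) := by
    rw [hN, NL, Matrix.mul_assoc, ← hP, hPX, ← hD, Matrix.mul_assoc, SL, Matrix.add_mul,
      Matrix.one_mul, Matrix.smul_mul]
  have hKG : Kmat A (Wb g W L) * Gb = 1 := Gr_mul hA hV
  set Δ : Matrix ι ι ℂ := Matrix.diagonal fun x => Wr g W L c x - Wb g W L x with hΔ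
  have hK : Kmat A (Wr g W L c) = Kmat A (Wb g W L) + Δ := by
    rw [Kmat, Kmat, add_assoc, hΔ, Matrix.diagonal_add]
    congr 2
    funext x
    ring
  have hDΔ : (1 - D) * Δ = (-(2 * g * I) : ℂ) • D := by
    have : (1 : Matrix ι ι ℂ) = Matrix.diagonal fun _ => 1 := Matrix.diagonal_one.symm
    rw [this, hD, DL, Matrix.diagonal_sub, hΔ, Matrix.diagonal_mul_diagonal,
      ← Matrix.diagonal_smul]
    congr 1
    funext x
    exact one_sub_u_mul x c
  have hE : (1 - D) * ((2 * g * I : ℂ) • X + Δ * Gb + (2 * g * I : ℂ) • (Δ * Gb * X)) = 0 := by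
    have e1 : (1 - D) * ((2 * g * I : ℂ) • X + Δ * Gb + (2 * g * I : ℂ) • (Δ * Gb * X)) =
        (2 * g * I : ℂ) • (X - D * X) + ((1 - D) * Δ) * Gb +
          (2 * g * I : ℂ) • (((1 - D) * Δ) * Gb * X) := by
      rw [Matrix.mul_add, Matrix.mul_add, Matrix.mul_smul, Matrix.mul_smul, Matrix.sub_mul 1 D X,
        Matrix.one_mul, Matrix.mul_assoc (1 - D) Δ Gb, Matrix.mul_assoc (1 - D) (Δ * Gb) X]
    rw [e1, hDΔ, Matrix.smul_mul, Matrix.smul_mul]
    have e2 : X - D * X = D * Gb + (2 * g * I : ℂ) • (D * Gb * X) := by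
      have : X = D * Gb + (D * X + (2 * g * I : ℂ) • (D * Gb * X)) := by
        conv_lhs => rw [h1, hNX]
        rw [Matrix.mul_add, Matrix.mul_smul, Matrix.mul_assoc D Gb X]
      rw [sub_eq_iff_eq_add, add_assoc]
      rw [add_comm ((2 * g * I : ℂ) • (D * Gb * X)) (D * X)]
      exact this
    rw [e2, smul_add, smul_smul, smul_smul]
    rw [neg_smul, mul_neg, neg_smul]
    abel
  have hE0 : (2 * g * I : ℂ) • X + Δ * Gb + (2 * g * I : ℂ) • (Δ * Gb * X) = 0 := by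
    set Y := (2 * g * I : ℂ) • X + Δ * Gb + (2 * g * I : ℂ) • (Δ * Gb * X)
    ext x y
    have h3 := congrFun (congrFun hE x) y
    have h4 : (1 : Matrix ι ι ℂ) - D = Matrix.diagonal fun x => 1 - if x ∈ L then uu (c x) else 0 := by
      rw [← Matrix.diagonal_one, hD, DL, Matrix.diagonal_sub]
    rw [h4, Matrix.diagonal_mul] at h3
    refine (mul_eq_zero.1 h3).resolve_left ?_
    split_ifs
    · exact one_sub_uu_ne _
    · simp
  have hinv : Kmat A (Wr g W L c) * (Gb + (2 * g * I : ℂ) • (Gb * X)) = 1 := by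
    rw [hK, Matrix.add_mul, Matrix.mul_add, Matrix.mul_add, Matrix.mul_smul, Matrix.mul_smul,
      ← Matrix.mul_assoc (Kmat A (Wb g W L)) Gb X, ← Matrix.mul_assoc Δ Gb X, hKG, Matrix.one_mul]
    have : (1 : Matrix ι ι ℂ) + (2 * g * I : ℂ) • X + (Δ * Gb + (2 * g * I : ℂ) • (Δ * Gb * X)) =
        1 + ((2 * g * I : ℂ) • X + Δ * Gb + (2 * g * I : ℂ) • (Δ * Gb * X)) := by abel
    rw [this, hE0, add_zero]
  have hG : Gr A (Wr g W L c) = Gb + (2 * g * I : ℂ) • (Gb * X) := by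
    rw [Gr, Matrix.inv_eq_right_inv hinv]
  rw [hG, Matrix.add_apply, Matrix.smul_apply, smul_eq_mul]
  congr 2
  have h5 : X = P * X := hPX.symm
  rw [h5, Matrix.mul_apply, qf, dotProduct]
  refine Finset.sum_congr rfl fun i _ => ?_
  have h6 : (P * X) i b = (if i ∈ L then 1 else 0) * X i b := by
    rw [hP, PL, Matrix.diagonal_mul]
  have h7 : X i b = (Rz N 1 *ᵥ yL A g W L c b) i := by
    rw [hX, Matrix.mul_apply, Matrix.mulVec, dotProduct]
    refine Finset.sum_congr rfl fun j _ => ?_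
    rw [hD, DL, Matrix.diagonal_mul, yL]
  rw [h6, h7, Pi.star_apply, xL]
  split_ifs with hi
  · rw [star_star, one_mul]
  · rw [star_zero]
    ring

/-- rotating the layer -/
theorem Gr_rotv (hA : A.IsSymm) (hg : 0 < g) (hη : 0 < η) (hW : ∀ x, (W x).im ≤ -η)
    (c : ι → ℝ) (θ : ℝ) (hθ : ∀ x, Real.cos (Real.arctan (c x) - θ / 2) ≠ 0) (a b : ι) :
    Gr A (Wr g W L (rotv θ c)) a b = Gr A (Wb g W L) a b + 2 * g * I * (circleMap 0 1 θ *
      qf (NL A g W L c) (xL A g W L a) (yL A g W L c b) (circleMap 0 1 θ)) := by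
  rw [Gr_formula hA hg hη hW]
  congr 2
  set z := circleMap 0 1 θ with hz
  have h1 : DL L (rotv θ c) = z • DL L c := by
    rw [DL, DL, ← Matrix.diagonal_smul]
    congr 1
    funext x
    rw [Pi.smul_apply, rotv, uu_rot (hθ x), smul_eq_mul]
    split_ifs <;> simp [hz]
  have h2 : NL A g W L (rotv θ c) = z • NL A g W L c := by
    rw [NL, NL, h1, Matrix.smul_mul, Matrix.smul_mul]
  have h3 : yL A g W L (rotv θ c) b = z • yL A g W L c b := by
    funext j
    rw [Pi.smul_apply, yL, yL, rotv, uu_rot (hθ j), smul_eq_mul]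
    split_ifs
    · rw [hz]; ring
    · ring
  have h4 : Rz (z • NL A g W L c) 1 = Rz (NL A g W L c) z := by
    rw [Rz, Rz, one_smul]
  rw [h2, h3, qf, qf, h4, Matrix.mulVec_smul, dotProduct_smul, smul_eq_mul]

end P365S6
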