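import Vale.Agent.P365.S6.Kol

/-!
# P365 S6: random signs; Hilbert-Schmidt form of the Kolmogorov bound.
-/

namespace P365S6

open Complex Metric Matrix
open scoped Real InnerProductSpace

variable {α β : Type*} [DecidableEq α] [DecidableEq β]

/-- sign of `a` -/
def sg (T : Finset α) (a : α) : ℂ := if a ∈ T then -1 else 1

theorem sg_insert_self {T : Finset α} {a : α} : sg (insert a T) a = -1 := by simp [sg]

theorem sg_insert_ne {T : Finset α} {a b : α} (h : b ≠ a) : sg (insert a T) b = sg T b := by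
  simp [sg, h]

theorem norm_sg (T : Finset α) (a : α) : ‖sg T a‖ = 1 := by
  unfold sg
  split_ifs <;> simp

section E

variable {E : Type*} [NormedAddCommGroup E] [InnerProductSpace ℂ E]

theorem sum_powerset_sg {F : E → ℝ} {a : α} {s : Finset α} (ha : a ∉ s) (x : α → E) :
    ∑ T ∈ (insert a s).powerset, F (∑ b ∈ insert a s, sg T b • x b) =
      ∑ T ∈ s.powerset, (F (x a + ∑ b ∈ s, sg T b • x b) + F (-x a + ∑ b ∈ s, sg T b • x b)) := by
  rw [Finset.sum_powerset_insert ha, Finset.sum_add_distrib]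
  congr 1
  · refine Finset.sum_congr rfl fun T hT => ?_
    have haT : a ∉ T := fun h => ha (Finset.mem_powerset.1 hT h)
    rw [Finset.sum_insert ha]
    simp [sg, haT]
  · refine Finset.sum_congr rfl fun T hT => ?_
    rw [Finset.sum_insert ha, sg_insert_self, neg_one_smul]
    congr 2
    refine Finset.sum_congr rfl fun b hb => ?_
    rw [sg_insert_ne (fun h => ha (by rw [← h]; exact hb))]

theorem rad2 (S : Finset α) (x : α → E) :
    ∑ T ∈ S.powerset, ‖∑ a ∈ S, sg T a • x a‖ ^ 2 = 2 ^ S.card * ∑ a ∈ S, ‖x a‖ ^ 2 := by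
  induction S using Finset.induction_on with
  | empty => simp
  | insert a s ha ih =>
    rw [sum_powerset_sg (F := fun v => ‖v‖ ^ 2) ha]
    have h1 : ∀ u : E, ‖x a + u‖ ^ 2 + ‖-x a + u‖ ^ 2 = 2 * (‖x a‖ ^ 2 + ‖u‖ ^ 2) := by
      intro u
      have := parallelogram_law_with_norm ℂ u (x a)
      rw [add_comm (x a) u, neg_add_eq_sub, sq, sq]
      linarith [sq (‖x a‖), sq ‖u‖]
    simp only [h1]
    rw [← Finset.mul_sum, Finset.sum_add_distrib, ih, Finset.sum_const, Finset.card_powerset,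
      Finset.card_insert_of_notMem ha, Finset.sum_insert ha, nsmul_eq_mul]
    push_cast
    ring

theorem rad4 (S : Finset α) (x : α → E) :
    ∑ T ∈ S.powerset, ‖∑ a ∈ S, sg T a • x a‖ ^ 4 ≤ 3 * 2 ^ S.card * (∑ a ∈ S, ‖x a‖ ^ 2) ^ 2 := by
  induction S using Finset.induction_on with
  | empty => simp
  | insert a s ha ih =>
    rw [sum_powerset_sg (F := fun v => ‖v‖ ^ 4) ha]
    have h1 : ∀ u : E, ‖x a + u‖ ^ 4 + ‖-x a + u‖ ^ 4 ≤
        2 * ‖u‖ ^ 4 + 12 * ‖x a‖ ^ 2 * ‖u‖ ^ 2 + 2 * ‖x a‖ ^ 4 := by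
      intro u
      have e1 : ‖x a + u‖ ^ 2 = ‖x a‖ ^ 2 + 2 * (⟪x a, u⟫_ℂ).re + ‖u‖ ^ 2 := by
        have := @norm_add_sq ℂ E _ _ _ (x a) u
        simpa using this
      have e2 : ‖-x a + u‖ ^ 2 = ‖x a‖ ^ 2 - 2 * (⟪x a, u⟫_ℂ).re + ‖u‖ ^ 2 := by
        have := @norm_add_sq ℂ E _ _ _ (-x a) u
        rw [inner_neg_left, norm_neg] at this
        simp only [map_neg, RCLike.re_to_complex] at this
        linarith
      have e3 : |(⟪x a, u⟫_ℂ).re| ≤ ‖x a‖ * ‖u‖ :=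
        (Complex.abs_re_le_norm _).trans (norm_inner_le_norm _ _)
      have e4 : (⟪x a, u⟫_ℂ).re ^ 2 ≤ (‖x a‖ * ‖u‖) ^ 2 := by
        rw [← sq_abs]
        exact pow_le_pow_left₀ (abs_nonneg _) e3 2
      have e5 : ∀ r : ℝ, r ^ 4 = (r ^ 2) ^ 2 := fun r => by ring
      rw [e5 ‖x a + u‖, e5 ‖-x a + u‖, e1, e2]
      nlinarith
    have h2 : ∑ T ∈ s.powerset, (‖x a + ∑ b ∈ s, sg T b • x b‖ ^ 4 +
        ‖-x a + ∑ b ∈ s, sg T b • x b‖ ^ 4) ≤ ∑ T ∈ s.powerset, (2 * ‖∑ b ∈ s, sg T b • x b‖ ^ 4 +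
        12 * ‖x a‖ ^ 2 * ‖∑ b ∈ s, sg T b • x b‖ ^ 2 + 2 * ‖x a‖ ^ 4) :=
      Finset.sum_le_sum fun T _ => h1 _
    refine h2.trans ?_
    rw [Finset.sum_add_distrib, Finset.sum_add_distrib, ← Finset.mul_sum, ← Finset.mul_sum, rad2,
      Finset.sum_const, Finset.card_powerset, Finset.card_insert_of_notMem ha,
      Finset.sum_insert ha, nsmul_eq_mul]
    set M := ∑ b ∈ s, ‖x b‖ ^ 2 with hM
    have hM0 : 0 ≤ M := Finset.sum_nonneg fun b _ => by positivity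
    have h3 : (0 : ℝ) ≤ 2 ^ s.card := by positivity
    push_cast
    rw [pow_succ (2 : ℝ) s.card]
    have h5 := mul_nonneg h3 (by positivity : 0 ≤ ‖x a‖ ^ 4)
    have h6 : 3 * ((2 : ℝ) ^ s.card * 2) * (‖x a‖ ^ 2 + M) ^ 2 =
        2 * (3 * 2 ^ s.card * M ^ 2) + 12 * ‖x a‖ ^ 2 * (2 ^ s.card * M) +
        2 ^ s.card * (2 * ‖x a‖ ^ 4) + 4 * (2 ^ s.card * ‖x a‖ ^ 4) := by ring
    rw [h6]
    linarith

end E

/-- signed bilinear sum -/
noncomputable def QQ (S : Finset α) (B : Finset β) (H : α → β → ℂ) (T : Finset α) (T' : Finset β) : ℂ :=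
  ∑ a ∈ S, ∑ b ∈ B, sg T a * sg T' b * H a b

theorem QQ_eq (S : Finset α) (B : Finset β) (H : α → β → ℂ) (T : Finset α) (T' : Finset β) :
    QQ S B H T T' = ∑ b ∈ B, sg T' b • (∑ a ∈ S, sg T a * H a b) := by
  unfold QQ
  rw [Finset.sum_comm]
  refine Finset.sum_congr rfl fun b _ => ?_
  rw [smul_eq_mul, Finset.mul_sum]
  exact Finset.sum_congr rfl fun a _ => by ring

/-- row vector as an element of the Hilbert space -/
noncomputable def rowv (B : Finset β) (H : α → β → ℂ) (a : α) : EuclideanSpace ℂ B :=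
  WithLp.toLp 2 fun b => H a b

omit [DecidableEq α] [DecidableEq β] in
theorem norm_rowv (B : Finset β) (H : α → β → ℂ) (a : α) :
    ‖rowv B H a‖ ^ 2 = ∑ b ∈ B, ‖H a b‖ ^ 2 := by
  rw [EuclideanSpace.norm_sq_eq, ← Finset.sum_coe_sort B]
  rfl

omit [DecidableEq β] in
theorem norm_sum_rowv (S : Finset α) (B : Finset β) (H : α → β → ℂ) (T : Finset α) :
    ‖∑ a ∈ S, sg T a • rowv B H a‖ ^ 2 = ∑ b ∈ B, ‖∑ a ∈ S, sg T a * H a b‖ ^ 2 := by
  have h1 : ∑ a ∈ S, sg T a • rowv B H a = WithLp.toLp 2 fun b : B => ∑ a ∈ S, sg T a * H a b := by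
    ext b
    simp [rowv]
  rw [h1, EuclideanSpace.norm_sq_eq, ← Finset.sum_coe_sort B]

theorem QQ2 (S : Finset α) (B : Finset β) (H : α → β → ℂ) :
    ∑ T ∈ S.powerset, ∑ T' ∈ B.powerset, ‖QQ S B H T T'‖ ^ 2 =
      2 ^ S.card * 2 ^ B.card * ∑ a ∈ S, ∑ b ∈ B, ‖H a b‖ ^ 2 := by
  simp only [QQ_eq]
  have h1 : ∀ T, ∑ T' ∈ B.powerset, ‖∑ b ∈ B, sg T' b • (∑ a ∈ S, sg T a * H a b)‖ ^ 2 =
      2 ^ B.card * ‖∑ a ∈ S, sg T a • rowv B H a‖ ^ 2 := by
    intro T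
    rw [rad2, norm_sum_rowv]
  simp only [h1]
  rw [← Finset.mul_sum, rad2]
  simp only [norm_rowv]
  ring

theorem QQ4 (S : Finset α) (B : Finset β) (H : α → β → ℂ) :
    ∑ T ∈ S.powerset, ∑ T' ∈ B.powerset, ‖QQ S B H T T'‖ ^ 4 ≤
      9 * (2 ^ S.card * 2 ^ B.card) * (∑ a ∈ S, ∑ b ∈ B, ‖H a b‖ ^ 2) ^ 2 := by
  simp only [QQ_eq]
  have h1 : ∀ T, ∑ T' ∈ B.powerset, ‖∑ b ∈ B, sg T' b • (∑ a ∈ S, sg T a * H a b)‖ ^ 4 ≤
      3 * 2 ^ B.card * ‖∑ a ∈ S, sg T a • rowv B H a‖ ^ 4 := by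
    intro T
    refine (rad4 B _).trans (le_of_eq ?_)
    rw [← norm_sum_rowv]
    ring
  refine (Finset.sum_le_sum fun T _ => h1 T).trans ?_
  rw [← Finset.mul_sum]
  have h2 := rad4 S (rowv B H)
  simp only [norm_rowv] at h2
  have h3 : (0 : ℝ) ≤ 3 * 2 ^ B.card := by positivity
  refine (mul_le_mul_of_nonneg_left h2 h3).trans (le_of_eq ?_)
  ring

/-- `M^{s/2} ≤ 36 avg |Q|^s` -/
theorem hs_le (S : Finset α) (B : Finset β) (H : α → β → ℂ) {s : ℝ} (h0 : 0 < s) (h1 : s < 1) :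
    (∑ a ∈ S, ∑ b ∈ B, ‖H a b‖ ^ 2) ^ (s / 2) ≤ 36 * (2 ^ S.card * 2 ^ B.card)⁻¹ *
      ∑ T ∈ S.powerset, ∑ T' ∈ B.powerset, ‖QQ S B H T T'‖ ^ s := by
  set M := ∑ a ∈ S, ∑ b ∈ B, ‖H a b‖ ^ 2 with hM
  have hM0 : 0 ≤ M := Finset.sum_nonneg fun a _ => Finset.sum_nonneg fun b _ => by positivity
  rcases hM0.eq_or_lt with hM1 | hM1
  · rw [← hM1, Real.zero_rpow (by positivity)]
    positivity
  set n : ℝ := 2 ^ S.card * 2 ^ B.card with hn
  have hn0 : 0 < n := by positivity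
  have hpt : ∀ T T', M ^ (s / 2) * (18⁻¹ * (‖QQ S B H T T'‖ ^ 2 / M -
      ‖QQ S B H T T'‖ ^ 4 / (18 * M ^ 2))) ≤ ‖QQ S B H T T'‖ ^ s := by
    intro T T'
    set r := ‖QQ S B H T T'‖ with hr
    have hr0 : 0 ≤ r := norm_nonneg _
    set q := r ^ 2 / M with hq
    have hq0 : 0 ≤ q := by positivity
    have e1 : r ^ s = M ^ (s / 2) * q ^ (s / 2) := by
      rw [← Real.mul_rpow hM0 hq0, hq, mul_div_cancel₀ _ hM1.ne', ← Real.rpow_natCast r 2,
        ← Real.rpow_mul hr0]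
      congr 1
      push_cast
      ring
    rw [e1]
    refine mul_le_mul_of_nonneg_left ?_ (by positivity)
    have e2 : r ^ 4 / (18 * M ^ 2) = q ^ 2 / 18 := by
      rw [hq]
      field_simp
    rw [e2]
    by_cases hq18 : q ≤ 18
    · rcases hq0.eq_or_lt with h | hqp
      · rw [← h]
        simp
        positivity
      · have h2 : q * 18⁻¹ ≤ q ^ (s / 2) := by
          have h3 : q ^ (s / 2) = q * q ^ (s / 2 - 1) := by
            rw [Real.rpow_sub hqp, Real.rpow_one]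
            field_simp
          rw [h3]
          refine mul_le_mul_of_nonneg_left ?_ hq0
          have h4 : (18 : ℝ) ^ (s / 2 - 1) ≤ q ^ (s / 2 - 1) :=
            Real.rpow_le_rpow_of_nonpos hqp hq18 (by linarith)
          have h5 : (18 : ℝ) ^ (-1 : ℝ) ≤ 18 ^ (s / 2 - 1) :=
            Real.rpow_le_rpow_of_exponent_le (by norm_num) (by linarith)
          rw [Real.rpow_neg_one] at h5
          exact h5.trans h4
        nlinarith [sq_nonneg q]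
    · push Not at hq18
      have : q - q ^ 2 / 18 ≤ 0 := by nlinarith
      have h3 : 0 ≤ q ^ (s / 2) := by positivity
      nlinarith
  have hsum := Finset.sum_le_sum fun T (_ : T ∈ S.powerset) =>
    Finset.sum_le_sum fun T' (_ : T' ∈ B.powerset) => hpt T T'
  simp only [← Finset.mul_sum] at hsum
  have e3 : ∑ T ∈ S.powerset, ∑ T' ∈ B.powerset, (‖QQ S B H T T'‖ ^ 2 / M -
      ‖QQ S B H T T'‖ ^ 4 / (18 * M ^ 2)) =
      (∑ T ∈ S.powerset, ∑ T' ∈ B.powerset, ‖QQ S B H T T'‖ ^ 2) / M -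
      (∑ T ∈ S.powerset, ∑ T' ∈ B.powerset, ‖QQ S B H T T'‖ ^ 4) / (18 * M ^ 2) := by
    simp only [Finset.sum_sub_distrib, ← Finset.sum_div]
  rw [e3, QQ2, ← hM, ← hn] at hsum
  have h4 := QQ4 S B H
  rw [← hM, ← hn] at h4
  have h5 : (∑ T ∈ S.powerset, ∑ T' ∈ B.powerset, ‖QQ S B H T T'‖ ^ 4) / (18 * M ^ 2) ≤ n / 2 := by
    rw [div_le_iff₀ (by positivity)]
    refine h4.trans (le_of_eq ?_)
    ring
  have h6 : n * M / M = n := mul_div_cancel_right₀ n hM1.ne'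
  rw [h6] at hsum
  have h7 : M ^ (s / 2) * (18⁻¹ * (n / 2)) ≤
      ∑ T ∈ S.powerset, ∑ T' ∈ B.powerset, ‖QQ S B H T T'‖ ^ s := by
    refine le_trans ?_ hsum
    refine mul_le_mul_of_nonneg_left ?_ (by positivity)
    refine mul_le_mul_of_nonneg_left ?_ (by norm_num)
    linarith
  have h8 : M ^ (s / 2) = 36 * n⁻¹ * (M ^ (s / 2) * (18⁻¹ * (n / 2))) := by
    field_simp
    norm_num
  rw [h8]
  exact mul_le_mul_of_nonneg_left h7 (by positivity)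

/-- `avg M_T^{s/2} ≤ 2 M^{s/2}` for vectors with random signs -/
theorem avg_sg_le {ι : Type*} [Fintype ι] (S : Finset α) (x : α → ι → ℂ) {s : ℝ} (h0 : 0 < s)
    (h1 : s < 1) : ∑ T ∈ S.powerset, (∑ i, ‖∑ a ∈ S, sg T a * x a i‖ ^ 2) ^ (s / 2) ≤
      2 * 2 ^ S.card * (∑ a ∈ S, ∑ i, ‖x a i‖ ^ 2) ^ (s / 2) := by
  set M := ∑ a ∈ S, ∑ i, ‖x a i‖ ^ 2 with hM
  have hM0 : 0 ≤ M := Finset.sum_nonneg fun a _ => Finset.sum_nonneg fun b _ => by positivity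
  set m : Finset α → ℝ := fun T => ∑ i, ‖∑ a ∈ S, sg T a * x a i‖ ^ 2 with hm
  have hm0 : ∀ T, 0 ≤ m T := fun T => Finset.sum_nonneg fun i _ => by positivity
  have hsum : ∑ T ∈ S.powerset, m T = 2 ^ S.card * M := by
    rw [hm, Finset.sum_comm]
    have : ∀ i, ∑ T ∈ S.powerset, ‖∑ a ∈ S, sg T a * x a i‖ ^ 2 =
        2 ^ S.card * ∑ a ∈ S, ‖x a i‖ ^ 2 := fun i => by
      have := rad2 (E := ℂ) S (fun a => x a i)
      simpa only [smul_eq_mul] using this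
    simp only [this]
    rw [← Finset.mul_sum, Finset.sum_comm]
  rcases hM0.eq_or_lt with hM1 | hM1
  · rw [← hM1, mul_zero] at hsum
    have h3 : ∀ T ∈ S.powerset, m T = 0 :=
      (Finset.sum_eq_zero_iff_of_nonneg fun T _ => hm0 T).1 hsum
    have h4 : ∑ T ∈ S.powerset, m T ^ (s / 2) = 0 :=
      Finset.sum_eq_zero fun T hT => by rw [h3 T hT, Real.zero_rpow (by positivity)]
    change ∑ T ∈ S.powerset, m T ^ (s / 2) ≤ _
    rw [h4]
    positivity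
  have hpt : ∀ T, m T ^ (s / 2) ≤ M ^ (s / 2) * (1 + m T / M) := by
    intro T
    have hq0 : 0 ≤ m T / M := div_nonneg (hm0 T) hM0
    have e1 : m T ^ (s / 2) = M ^ (s / 2) * (m T / M) ^ (s / 2) := by
      rw [← Real.mul_rpow hM0 hq0, mul_div_cancel₀ _ hM1.ne']
    rw [e1]
    refine mul_le_mul_of_nonneg_left ?_ (by positivity)
    by_cases hq1 : m T / M ≤ 1
    · have := Real.rpow_le_one hq0 hq1 (by positivity : 0 ≤ s / 2)
      linarith
    · push Not at hq1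
      have := Real.rpow_le_rpow_of_exponent_le hq1.le (by linarith : s / 2 ≤ 1)
      rw [Real.rpow_one] at this
      linarith
  refine (Finset.sum_le_sum fun T _ => hpt T).trans (le_of_eq ?_)
  rw [← Finset.mul_sum, Finset.sum_add_distrib, ← Finset.sum_div, hsum, Finset.sum_const,
    Finset.card_powerset, nsmul_eq_mul]
  push_cast
  field_simp
  ring

section Mat

variable {ι : Type*} [Fintype ι] [DecidableEq ι]

/-- the constant -/
noncomputable def CH (s : ℝ) : ℝ := 36 * 16 * 4 * (Real.cos (π * s / 2))⁻¹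

theorem QQ_qf (N : Matrix ι ι ℂ) (S : Finset α) (B : Finset β) (x : α → ι → ℂ) (y : β → ι → ℂ)
    (z : ℂ) (T : Finset α) (T' : Finset β) :
    QQ S B (fun a b => qf N (x a) (y b) z) T T' =
      qf N (fun i => ∑ a ∈ S, sg T a * x a i) (fun i => ∑ b ∈ B, sg T' b * y b i) z := by
  have e1 : (fun i => ∑ a ∈ S, sg T a * x a i) = ∑ a ∈ S, sg T a • x a := by
    funext i
    simp
  have e2 : (fun i => ∑ b ∈ B, sg T' b * y b i) = ∑ b ∈ B, sg T' b • y b := by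
    funext i
    simp
  have h1 : ∀ T : Finset α, ∀ a, star (sg T a) = sg T a := by
    intro T a
    unfold sg
    split_ifs <;> simp
  unfold qf QQ
  rw [e1, e2, star_sum, Matrix.mulVec_sum, sum_dotProduct]
  refine Finset.sum_congr rfl fun a _ => ?_
  rw [dotProduct_sum]
  refine Finset.sum_congr rfl fun b _ => ?_
  rw [Matrix.mulVec_smul, dotProduct_smul, star_smul, smul_dotProduct, h1]
  simp only [smul_eq_mul]
  ring

/-- **Dimension free Kolmogorov bound.** -/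
theorem kol_HS {N : Matrix ι ι ℂ} (hN : Contr N) (S : Finset α) (B : Finset β) (x : α → ι → ℂ)
    (y : β → ι → ℂ) {s : ℝ} (h0 : 0 < s) (h1 : s < 1) :
    Real.circleAverage (fun z => (∑ a ∈ S, ∑ b ∈ B, ‖qf N (x a) (y b) z‖ ^ 2) ^ (s / 2)) 0 1 ≤
      CH s * (∑ a ∈ S, ∑ i, ‖x a i‖ ^ 2) ^ (s / 2) * (∑ b ∈ B, ∑ i, ‖y b i‖ ^ 2) ^ (s / 2) := by
  have hc := cos_pos h0 h1
  set X : Finset α → ι → ℂ := fun T i => ∑ a ∈ S, sg T a * x a i with hX
  set Y : Finset β → ι → ℂ := fun T i => ∑ b ∈ B, sg T b * y b i with hY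
  have hle : ∀ z, (∑ a ∈ S, ∑ b ∈ B, ‖qf N (x a) (y b) z‖ ^ 2) ^ (s / 2) ≤
      ∑ T ∈ S.powerset, ∑ T' ∈ B.powerset, (36 * (2 ^ S.card * 2 ^ B.card)⁻¹) *
        ‖qf N (X T) (Y T') z‖ ^ s := by
    intro z
    refine (hs_le S B (fun a b => qf N (x a) (y b) z) h0 h1).trans (le_of_eq ?_)
    simp only [QQ_qf, ← Finset.mul_sum]
    rfl
  have hint : ∀ T T', CircleIntegrable (fun z => (36 * ((2:ℝ) ^ S.card * 2 ^ B.card)⁻¹) *
        ‖qf N (X T) (Y T') z‖ ^ s) 0 1 := fun T T' =>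
    (circleIntegrable_norm_rpow (qf_analytic hN (X T) (Y T')) h0.le).const_mul _
  have hcont : ∀ a b, ContinuousOn (fun z => qf N (x a) (y b) z) (sphere 0 |(1:ℝ)|) := by
    intro a b
    rw [abs_one]
    exact fun z hz => (qf_analytic hN (x a) (y b) z
      (sphere_subset_closedBall hz)).continuousAt.continuousWithinAt
  have hintL : CircleIntegrable
      (fun z => (∑ a ∈ S, ∑ b ∈ B, ‖qf N (x a) (y b) z‖ ^ 2) ^ (s / 2)) 0 1 := by
    refine ContinuousOn.circleIntegrable' ?_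
    refine ContinuousOn.rpow_const ?_ fun z _ => Or.inr (by positivity)
    exact continuousOn_finsetSum _ fun a _ => continuousOn_finsetSum _ fun b _ =>
      (hcont a b).norm.pow 2
  have hint1 : ∀ T, CircleIntegrable (fun z => ∑ T' ∈ B.powerset,
      (36 * ((2:ℝ) ^ S.card * 2 ^ B.card)⁻¹) * ‖qf N (X T) (Y T') z‖ ^ s) 0 1 := fun T =>
    CircleIntegrable.fun_sum _ fun T' _ => hint T T'
  have hint2 : CircleIntegrable (fun z => ∑ T ∈ S.powerset, ∑ T' ∈ B.powerset,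
      (36 * ((2:ℝ) ^ S.card * 2 ^ B.card)⁻¹) * ‖qf N (X T) (Y T') z‖ ^ s) 0 1 :=
    CircleIntegrable.fun_sum _ fun T _ => hint1 T
  refine (Real.circleAverage_mono hintL hint2 fun z _ => hle z).trans ?_
  rw [Real.circleAverage_fun_sum fun T _ => hint1 T]
  have hTT : ∀ T T', Real.circleAverage (fun z => (36 * ((2:ℝ) ^ S.card * 2 ^ B.card)⁻¹) *
      ‖qf N (X T) (Y T') z‖ ^ s) 0 1 ≤ (36 * ((2:ℝ) ^ S.card * 2 ^ B.card)⁻¹) *
      (16 * (Real.cos (π * s / 2))⁻¹ * ((∑ i, ‖X T i‖ ^ 2) ^ (s / 2) *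
      (∑ i, ‖Y T' i‖ ^ 2) ^ (s / 2))) := by
    intro T T'
    have h2 := Real.circleAverage_fun_smul (a := 36 * ((2:ℝ) ^ S.card * 2 ^ B.card)⁻¹)
      (f := fun z => ‖qf N (X T) (Y T') z‖ ^ s) (c := 0) (R := 1)
    simp only [smul_eq_mul] at h2
    rw [h2]
    exact mul_le_mul_of_nonneg_left (kol_pair hN (X T) (Y T') h0 h1) (by positivity)
  have h3 : ∑ T ∈ S.powerset, Real.circleAverage (fun z => ∑ T' ∈ B.powerset,
      (36 * ((2:ℝ) ^ S.card * 2 ^ B.card)⁻¹) * ‖qf N (X T) (Y T') z‖ ^ s) 0 1 ≤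
      ∑ T ∈ S.powerset, ∑ T' ∈ B.powerset, (36 * ((2:ℝ) ^ S.card * 2 ^ B.card)⁻¹) *
      (16 * (Real.cos (π * s / 2))⁻¹ * ((∑ i, ‖X T i‖ ^ 2) ^ (s / 2) *
      (∑ i, ‖Y T' i‖ ^ 2) ^ (s / 2))) := by
    refine Finset.sum_le_sum fun T _ => ?_
    rw [Real.circleAverage_fun_sum fun T' _ => hint T T']
    exact Finset.sum_le_sum fun T' _ => hTT T T'
  refine h3.trans ?_
  have hXs := avg_sg_le S x h0 h1
  have hYs := avg_sg_le B y h0 h1
  set n : ℝ := 2 ^ S.card with hn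
  set n' : ℝ := 2 ^ B.card with hn'
  have hn0 : 0 < n := by positivity
  have hn0' : 0 < n' := by positivity
  have h4 : ∑ T ∈ S.powerset, ∑ T' ∈ B.powerset, (36 * (n * n')⁻¹) *
      (16 * (Real.cos (π * s / 2))⁻¹ * ((∑ i, ‖X T i‖ ^ 2) ^ (s / 2) *
      (∑ i, ‖Y T' i‖ ^ 2) ^ (s / 2))) = (36 * (n * n')⁻¹ * (16 * (Real.cos (π * s / 2))⁻¹)) *
      ((∑ T ∈ S.powerset, (∑ i, ‖X T i‖ ^ 2) ^ (s / 2)) *
      (∑ T' ∈ B.powerset, (∑ i, ‖Y T' i‖ ^ 2) ^ (s / 2))) := by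
    rw [Finset.sum_mul_sum, Finset.mul_sum]
    refine Finset.sum_congr rfl fun T _ => ?_
    rw [Finset.mul_sum]
    exact Finset.sum_congr rfl fun T' _ => by ring
  rw [h4]
  have h5 : (∑ T ∈ S.powerset, (∑ i, ‖X T i‖ ^ 2) ^ (s / 2)) *
      (∑ T' ∈ B.powerset, (∑ i, ‖Y T' i‖ ^ 2) ^ (s / 2)) ≤
      (2 * n * (∑ a ∈ S, ∑ i, ‖x a i‖ ^ 2) ^ (s / 2)) *
      (2 * n' * (∑ b ∈ B, ∑ i, ‖y b i‖ ^ 2) ^ (s / 2)) := by
    refine mul_le_mul hXs hYs ?_ ?_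
    · exact Finset.sum_nonneg fun T _ => by positivity
    · positivity
  refine (mul_le_mul_of_nonneg_left h5 (by positivity)).trans (le_of_eq ?_)
  unfold CH
  field_simp
  ring

end Mat

end P365S6
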