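import Vale.Agent.P365.S6.Rad
import Vale.Agent.P365.Bdl.B1

/-!
# P365 S6: common rotation of the Cayley phases of independent Cauchy variables.
-/

namespace P365S6

open MeasureTheory ProbabilityTheory Complex Metric Set Filter Topology
open scoped ENNReal NNReal Real Interval

variable {E : Type*} [NormedAddCommGroup E] [NormedSpace ℝ E]

/-- rotation of the real line by the angle `-θ/2` in the `arctan` coordinate -/
noncomputable def rot (θ t : ℝ) : ℝ := Real.tan (Real.arctan t - θ / 2)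

theorem measurable_tan : Measurable Real.tan := by
  have : Real.tan = fun x => Real.sin x / Real.cos x := funext Real.tan_eq_sin_div_cos
  rw [this]
  exact Real.measurable_sin.div Real.measurable_cos

theorem measurable_rot : Measurable fun p : ℝ × ℝ => rot p.1 p.2 := by
  unfold rot
  exact measurable_tan.comp ((Real.continuous_arctan.measurable.comp measurable_snd).sub
    (measurable_fst.div_const 2))

theorem integral_rot (f : ℝ → E) (θ : ℝ) : ∫ t, f (rot θ t) ∂nu = ∫ t, f t ∂nu := by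
  rw [nu_integral_arctan, nu_integral_arctan]
  congr 1
  have h1 : ∫ φ in Ioo (-(π / 2)) (π / 2), f (rot θ (Real.tan φ)) =
      ∫ φ in Ioo (-(π / 2)) (π / 2), f (Real.tan (φ - θ / 2)) := by
    refine setIntegral_congr_fun measurableSet_Ioo fun φ hφ => ?_
    simp only [rot]
    rw [Real.arctan_tan hφ.1 hφ.2]
  rw [h1, ← integral_Ioc_eq_integral_Ioo, ← integral_Ioc_eq_integral_Ioo,
    ← intervalIntegral.integral_of_le (by linarith [Real.pi_pos]),
    ← intervalIntegral.integral_of_le (by linarith [Real.pi_pos]),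
    intervalIntegral.integral_comp_sub_right (fun φ => f (Real.tan φ)) (θ / 2)]
  have hper : Function.Periodic (fun φ : ℝ => f (Real.tan φ)) π := by
    intro φ
    simp only
    rw [Real.tan_add_pi]
  have h2 := hper.intervalIntegral_add_eq (-(π / 2) - θ / 2) (-(π / 2))
  rw [show -(π / 2) - θ / 2 + π = π / 2 - θ / 2 by ring, show -(π / 2) + π = π / 2 by ring] at h2
  exact h2

theorem measurePreserving_rot (θ : ℝ) : MeasurePreserving (rot θ) nu nu := by
  have hm : Measurable (rot θ) :=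
    Measurable.comp (g := fun p : ℝ × ℝ => rot p.1 p.2) (f := fun t => (θ, t)) measurable_rot
      (measurable_const.prodMk measurable_id)
  refine ⟨hm, ?_⟩
  ext s hs
  rw [Measure.map_apply hm hs]
  have h := integral_rot (fun t => s.indicator (fun _ => (1 : ℝ)) t) θ
  have h1 : (fun t => s.indicator (fun _ => (1 : ℝ)) (rot θ t)) =
      (rot θ ⁻¹' s).indicator fun _ => (1 : ℝ) := by
    funext t
    by_cases ht : rot θ t ∈ s <;> simp [indicator, ht]
  rw [h1, integral_indicator (hm hs), integral_indicator hs] at h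
  simp only [integral_const, smul_eq_mul, mul_one, measureReal_restrict_apply_univ] at h
  exact (ENNReal.toReal_eq_toReal_iff' (measure_ne_top nu _) (measure_ne_top nu _)).1 h

/-- Cayley phase of `c` -/
noncomputable def uu (c : ℝ) : ℂ := (c + I) / (c - I)

theorem sub_I_ne (c : ℝ) : (c : ℂ) - I ≠ 0 := by
  intro h
  have := congrArg Complex.im h
  simp at this

theorem add_I_ne (c : ℝ) : (c : ℂ) + I ≠ 0 := by
  intro h
  have := congrArg Complex.im h
  simp at this

theorem norm_uu (c : ℝ) : ‖uu c‖ = 1 := by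
  unfold uu
  rw [norm_div]
  have h1 : ‖(c : ℂ) + I‖ = ‖(c : ℂ) - I‖ := by
    have : (starRingEnd ℂ) ((c : ℂ) - I) = c + I := by simp
    rw [← this, RCLike.norm_conj]
  rw [h1, div_self (norm_ne_zero_iff.2 (sub_I_ne c))]

theorem one_sub_uu (c : ℝ) : 1 - uu c = -2 * I / (c - I) := by
  unfold uu
  rw [eq_div_iff (sub_I_ne c), sub_mul, div_mul_cancel₀ _ (sub_I_ne c)]
  ring

theorem uu_tan {φ : ℝ} (h : Real.cos φ ≠ 0) : uu (Real.tan φ) = -Complex.exp (-(2 * φ * I)) := by
  have h0 : Complex.exp (-(2 * φ * I)) = (Real.cos φ - Real.sin φ * I) ^ 2 := by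
    have : (Real.cos φ : ℂ) - Real.sin φ * I = Complex.exp (-(φ * I)) := by
      rw [← neg_mul, Complex.exp_mul_I, Complex.cos_neg, Complex.sin_neg, ofReal_cos, ofReal_sin]
      ring
    rw [this, ← Complex.exp_nat_mul]
    congr 1
    push_cast
    ring
  rw [h0]
  unfold uu
  rw [div_eq_iff (sub_I_ne _)]
  have hc : (Real.cos φ : ℂ) ≠ 0 := ofReal_ne_zero.2 h
  have h5 : (Real.cos φ : ℂ) ^ 2 + (Real.sin φ : ℂ) ^ 2 = 1 := by
    rw [← ofReal_pow, ← ofReal_pow, ← ofReal_add, Real.cos_sq_add_sin_sq, ofReal_one]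
  rw [Real.tan_eq_sin_div_cos, ofReal_div]
  set c : ℂ := (Real.cos φ : ℂ)
  set s : ℂ := (Real.sin φ : ℂ)
  have h6 : (s / c + I) * c = -(c - s * I) ^ 2 * (s / c - I) * c := by
    have e1 : (s / c + I) * c = s + I * c := by
      field_simp
    have e2 : -(c - s * I) ^ 2 * (s / c - I) * c = -(c - s * I) ^ 2 * (s - I * c) := by
      field_simp
    rw [e1, e2]
    linear_combination (-(s + I * c)) * h5 + (2 * c ^ 2 * s + s ^ 3 - c * s ^ 2 * I) * I_sq
  exact mul_right_cancel₀ hc h6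

theorem uu_rot {θ t : ℝ} (h : Real.cos (Real.arctan t - θ / 2) ≠ 0) :
    uu (rot θ t) = circleMap 0 1 θ * uu t := by
  have h1 : uu t = -Complex.exp (-(2 * (Real.arctan t : ℂ) * I)) := by
    conv_lhs => rw [← Real.tan_arctan t]
    exact uu_tan (Real.cos_arctan_pos t).ne'
  rw [rot, uu_tan h, h1]
  simp only [circleMap, zero_add, ofReal_one, one_mul]
  rw [mul_neg, ← Complex.exp_add]
  congr 2
  push_cast
  ring

section Pi

variable {ι : Type*} [Fintype ι]

/-- rotate all coordinates -/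
noncomputable def rotv (θ : ℝ) (c : ι → ℝ) : ι → ℝ := fun x => rot θ (c x)

theorem measurePreserving_rotv (θ : ℝ) :
    MeasurePreserving (rotv θ) (P365L.mu ι) (P365L.mu ι) :=
  measurePreserving_pi _ _ fun _ => measurePreserving_rot θ

omit [Fintype ι] in
theorem measurable_rotv : Measurable fun p : ℝ × (ι → ℝ) => rotv p.1 p.2 := by
  refine measurable_pi_iff.2 fun x => ?_
  exact Measurable.comp (g := fun p : ℝ × ℝ => rot p.1 p.2)
    (f := fun p : ℝ × (ι → ℝ) => (p.1, p.2 x)) measurable_rot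
      (measurable_fst.prodMk ((measurable_pi_apply x).comp measurable_snd))

theorem ae_cos_ne (c : ι → ℝ) :
    ∀ᵐ θ : ℝ, ∀ x, Real.cos (Real.arctan (c x) - θ / 2) ≠ 0 := by
  rw [ae_all_iff]
  intro x
  have h1 : {θ : ℝ | Real.cos (Real.arctan (c x) - θ / 2) = 0} ⊆
      range (fun k : ℤ => 2 * (Real.arctan (c x) - (2 * k + 1) * π / 2)) := by
    intro θ hθ
    obtain ⟨k, hk⟩ := Real.cos_eq_zero_iff.1 hθ
    refine ⟨k, ?_⟩
    simp only
    linarith
  have h2 : volume {θ : ℝ | Real.cos (Real.arctan (c x) - θ / 2) = 0} = 0 :=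
    ((countable_range _).mono h1).measure_zero _
  exact measure_eq_zero_iff_ae_notMem.1 h2

/-- averaging over a common rotation -/
theorem integral_rotv {Φ : (ι → ℝ) → ℝ} (hΦ : Measurable Φ) {C : ℝ} (hC : ∀ c, |Φ c| ≤ C)
    {Ψ : (ι → ℝ) → ℂ → ℝ} (h : ∀ c θ, (∀ x, Real.cos (Real.arctan (c x) - θ / 2) ≠ 0) →
      Φ (rotv θ c) = Ψ c (circleMap 0 1 θ)) :
    Integrable (fun c => Real.circleAverage (Ψ c) 0 1) (P365L.mu ι) ∧
    ∫ c, Φ c ∂(P365L.mu ι) = ∫ c, Real.circleAverage (Ψ c) 0 1 ∂(P365L.mu ι) := by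
  have hcirc : ∀ c, Real.circleAverage (Ψ c) 0 1 =
      (2 * π)⁻¹ * ∫ θ in Ioc 0 (2 * π), Φ (rotv θ c) := by
    intro c
    rw [Real.circleAverage_def, smul_eq_mul, intervalIntegral.integral_of_le (by positivity)]
    congr 1
    refine integral_congr_ae ?_
    filter_upwards [ae_restrict_of_ae (ae_cos_ne c)] with θ hθ
    exact (h c θ hθ).symm
  have hmeas : Measurable fun p : ℝ × (ι → ℝ) => Φ (rotv p.1 p.2) := hΦ.comp measurable_rotv
  have hint : Integrable (fun p : ℝ × (ι → ℝ) => Φ (rotv p.1 p.2))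
      ((volume.restrict (Ioc 0 (2 * π))).prod (P365L.mu ι)) := by
    refine Integrable.of_bound hmeas.aestronglyMeasurable C (Eventually.of_forall fun p => ?_)
    exact hC _
  have hswap := integral_integral_swap (f := fun θ c => Φ (rotv θ c)) hint
  have h1 : ∀ θ : ℝ, ∫ c, Φ (rotv θ c) ∂(P365L.mu ι) = ∫ c, Φ c ∂(P365L.mu ι) := by
    intro θ
    have hmp := measurePreserving_rotv (ι := ι) θ
    rw [← integral_map hmp.measurable.aemeasurable (by
      rw [hmp.map_eq]
      exact hΦ.aestronglyMeasurable), hmp.map_eq]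
  simp only [hcirc]
  constructor
  · exact (hint.integral_prod_right).const_mul _
  · rw [integral_const_mul, ← hswap]
    simp only [h1]
    rw [integral_const, smul_eq_mul]
    simp only [measureReal_restrict_apply_univ, Real.volume_real_Ioc, sub_zero]
    rw [max_eq_left (by positivity), ← mul_assoc, inv_mul_cancel₀ (by positivity), one_mul]

theorem integral_rotv_le {Φ : (ι → ℝ) → ℝ} (hΦ : Measurable Φ) {C : ℝ} (hC : ∀ c, |Φ c| ≤ C)
    {Ψ : (ι → ℝ) → ℂ → ℝ} (h : ∀ c θ, (∀ x, Real.cos (Real.arctan (c x) - θ / 2) ≠ 0) →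
      Φ (rotv θ c) = Ψ c (circleMap 0 1 θ)) {R : ℝ} (hR : ∀ c, Real.circleAverage (Ψ c) 0 1 ≤ R) :
    ∫ c, Φ c ∂(P365L.mu ι) ≤ R := by
  obtain ⟨h1, h2⟩ := integral_rotv hΦ hC h
  rw [h2]
  refine (integral_mono h1 (integrable_const R) hR).trans ?_
  simp

theorem le_integral_rotv {Φ : (ι → ℝ) → ℝ} (hΦ : Measurable Φ) {C : ℝ} (hC : ∀ c, |Φ c| ≤ C)
    {Ψ : (ι → ℝ) → ℂ → ℝ} (h : ∀ c θ, (∀ x, Real.cos (Real.arctan (c x) - θ / 2) ≠ 0) →
      Φ (rotv θ c) = Ψ c (circleMap 0 1 θ)) {R : ℝ} (hR : ∀ c, R ≤ Real.circleAverage (Ψ c) 0 1) :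
    R ≤ ∫ c, Φ c ∂(P365L.mu ι) := by
  obtain ⟨h1, h2⟩ := integral_rotv hΦ hC h
  rw [h2]
  refine le_trans ?_ (integral_mono (integrable_const R) h1 hR)
  simp

end Pi

end P365S6
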